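import Vale.Agent.P277Z.Luf.Hol
import Vale.Agent.P281.R2.H877.Pb1
import Vale.Agent.P272.K.Inv.Consts
import Vale.Agent.P272.K.N.Det
import Vale.Agent.P272.K.C2.Wirt

/-!
# Projectivity of a compact surface: strictly plurisubharmonic weights
-/

open scoped Manifold ContDiff Topology ComplexOrder
open Set Filter
open Vale.Agent.P272.K Vale.Agent.P277Z Vale.Agent.P281.R2.H877.PB

namespace Vale.Agent.P287T.Pj

variable {n : ℕ}

theorem fs_pos {A : Type} [Fintype A] {z : Cm n} {F : A → Cm n → ℂ}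
    (hF : ∀ a, AnalyticAt ℂ (F a) z) (h0 : ∃ a, F a z ≠ 0) (hi : ∀ v : Cm n,
      (∀ a b, F a z * fderiv ℂ (F b) z v = F b z * fderiv ℂ (F a) z v) → v = 0) :
    (cHess (fun y => Real.log (∑ a, ‖F a y‖ ^ 2)) z).PosDef := by
  have h1 := lse_posDef (F := F) (φ := fun _ _ => (0 : ℝ)) (z := z)
    (B := (0 : Matrix (Fin n) (Fin n) ℂ)) (fun a => (hF a).contDiffAt) (fun a => contDiffAt_const)
    (fun a => ?_) h0 ?_
  · simpa only [add_zero, Real.exp_zero, mul_one] using h1
  · rw [C2.cHess_const, add_zero]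
    exact Matrix.PosSemidef.zero
  · intro _ v _ hab
    have h3 : ∀ b, ∑ j, v j * PP F (fun _ _ => (0 : ℝ)) z b j = fderiv ℂ (F b) z v := by
      intro b
      conv_rhs => rw [pi_eq_sum_univ' v, map_sum]
      refine Finset.sum_congr rfl fun q _ => ?_
      have h4 : dz q (fun _ : Cm n => (((0 : ℝ)) : ℂ)) z = 0 := by simp [dz]
      simp only [PP]
      rw [h4, mul_zero, add_zero, dz_of_holo (hF b).differentiableAt, map_smul, smul_eq_mul]
    simp only [h3] at hab
    exact hi v hab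

theorem two {f : Cm n → ℝ} {z : Cm n} (h : ContDiffAt ℝ ∞ f z) : ContDiffAt ℝ 2 f z :=
  h.of_le (by norm_cast)

theorem cHess_la {u v : Cm n → ℝ} {z : Cm n} {t : ℝ} (hu : ContDiffAt ℝ ∞ u z)
    (hv : ContDiffAt ℝ ∞ v z) (h0 : 0 < u z + t * v z) (j k : Fin n) :
    cHess (fun y => Real.log (u y + t * v y)) z j k =
      ((u z : ℂ) + t * v z)⁻¹ * (cHess u z j k + t * cHess v z j k) - (((u z : ℂ) + t * v z) ^ 2)⁻¹ *
        ((dz j (fun y => (u y : ℂ)) z + t * dz j (fun y => (v y : ℂ)) z) *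
          (dzb k (fun y => (u y : ℂ)) z + t * dzb k (fun y => (v y : ℂ)) z)) := by
  have a := (ofReal_contDiffAt hu).differentiableAt (by simp)
  have b := (ofReal_contDiffAt hv).differentiableAt (by simp)
  rw [C2.cHess_log (two (hu.add (contDiffAt_const.mul hv))) h0,
    cHess_add (two hu) (two (contDiffAt_const.mul hv)), cHess_const_mul t (two hv)]
  simp only [Complex.ofReal_add, Complex.ofReal_mul]
  rw [dz_add a (b.const_mul _), dzb_add a (b.const_mul _), dz_const_mul _ b, dzb_const_mul _ b]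
  rfl

variable {W : Type} [TopologicalSpace W] [ChartedSpace (Cm n) W] {u v : W → ℝ} {x : W}
  {a : W → ℂ}

variable (n) in
/-- `u` is smooth at `x` -/
def Sm (u : W → ℝ) (x : W) : Prop :=
  ∀ e : Chart n W, At e x → ContDiffAt ℝ ∞ (fun z => u (e.symm z)) (e x)

theorem Sm.congr (h : Sm n u x) (k : ∀ᶠ y in 𝓝 x, u y = v y) : Sm n v x := fun e he =>
  (h e he).congr_of_eventuallyEq (((At.ev he).2 k).mono fun _ a => a.symm)

theorem Sm.cont (h : Sm n u x) : ContinuousAt u x := by
  have he := at_chart (n := n) x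
  exact ((h _ he).continuousAt.comp ((chartAt (Cm n) x).continuousAt he.2)).congr
    ((At.left he).mono fun y hy => congrArg u hy)

theorem sm_sq (h : Hol n a x) : Sm n (fun y => ‖a y‖ ^ 2) x := fun e he =>
  (((h e he).contDiffAt (n := ∞)).restrict_scalars ℝ).norm_sq ℂ

theorem spsh_congr (h : Spsh n u x) (k : ∀ᶠ y in 𝓝 x, u y = v y) : Spsh n v x := fun e he =>
  ⟨Sm.congr (fun e he => (h e he).1) k e he, cHess_congr ((At.ev he).2 k) ▸ (h e he).2⟩

theorem spsh_add (h : Spsh n u x) (ha : Hol n a x) (h0 : a x ≠ 0) :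
    Spsh n (fun y => u y + Real.log (‖a y‖ ^ 2)) x := fun e he => by
  have h1 : a (e.symm (e x)) ≠ 0 := by rwa [e.left_inv he.2]
  have h2 : ContDiffAt ℝ ∞ (fun z => Real.log (‖a (e.symm z)‖ ^ 2)) (e x) :=
    (sm_sq ha e he).log (pow_ne_zero _ (norm_ne_zero_iff.2 h1))
  refine ⟨(h e he).1.add h2, ?_⟩
  rw [cHess_add (two (h e he).1) (two h2), cHess_log_norm_sq (ha e he).contDiffAt h1, add_zero]
  exact (h e he).2

variable [IsManifold 𝓘(ℂ, Cm n) ω W]

theorem sm_of_chart {e : Chart n W} (he : At e x) {f : Cm n → ℝ} (h : ContDiffAt ℝ ∞ f (e x)) :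
    Sm n (fun y => f (e y)) x := fun e' he' =>
  ContDiffAt.comp (g := f) (e' x) (by rwa [he'.left_inv])
    (((transition he' he).of_le le_top).restrict_scalars ℝ)

theorem spsh_of_chart {e : Chart n W} (he : At e x) (hs : Sm n u x)
    (h : (cHess (fun z => u (e.symm z)) (e x)).PosDef) : Spsh n u x := fun e' he' =>
  ⟨hs e' he', by
    have h1 : (fun y => u (e'.symm y)) =ᶠ[𝓝 (e' x)] fun y => u (e.symm (e (e'.symm y))) := by
      filter_upwards [he'.nhds_at he] with z hz
      rw [hz.2.2.left_inv]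
    have h2 : e (e'.symm (e' x)) = e x := by rw [he'.left_inv]
    rw [cHess_congr h1, cHess_comp (τ := fun z => e (e'.symm z)) (f := fun y => u (e.symm y))
      (h2.symm ▸ two (hs e he)) (transition he' he), h2]
    exact posDef_form h (jacM_isUnit he' he)⟩

theorem spsh_open (hu : ∀ᶠ y in 𝓝 x, Sm n u y) (hv : ∀ᶠ y in 𝓝 x, Sm n v y) (h0 : 0 < u x)
    (hp : Spsh n (fun y => Real.log (u y)) x) :
    ∀ᶠ p : ℝ × W in 𝓝 (0, x), Spsh n (fun y => Real.log (u y + p.1 * v y)) p.2 := by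
  have he := at_chart (n := n) x
  set e := chartAt (Cm n) x
  obtain ⟨ε, hε, h⟩ := N.posDef_of_near (hp e he).2
  have h1 : ContinuousAt (fun p : ℝ × W => e p.2) (0, x) :=
    (e.continuousAt he.2).comp continuousAt_snd
  have u0 := hu.self_of_nhds e he
  have v0 := hv.self_of_nhds e he
  have c : ∀ {f : Cm n → ℂ}, ContDiffAt ℝ 0 f (e x) →
      ContinuousAt (fun p : ℝ × W => f (e p.2)) (0, x) := fun k => k.continuousAt.comp_of_eq h1 rfl
  have c0 : ContinuousAt (fun p : ℝ × W => (p.1 : ℂ)) (0, x) :=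
    Complex.continuous_ofReal.continuousAt.comp continuousAt_fst
  have c1 : ContinuousAt (fun p : ℝ × W => (u (e.symm (e p.2)) : ℂ) + p.1 * v (e.symm (e p.2)))
      (0, x) := (c ((ofReal_contDiffAt u0).of_le bot_le)).add
        (c0.mul (c ((ofReal_contDiffAt v0).of_le bot_le)))
  have c2 : (u (e.symm (e x)) : ℂ) + (0 : ℝ) * v (e.symm (e x)) ≠ 0 := by
    simpa [he.left_inv] using h0.ne'
  have l1 : (0 : WithTop ℕ∞) + 1 ≤ ∞ := by norm_cast
  have l2 : (0 : WithTop ℕ∞) + 1 + 1 ≤ ∞ := by norm_cast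
  have h2 := fun i j => ((((c1.inv₀ c2).mul ((c (C2.contDiffAt_cHess u0 l2 i j)).add
    (c0.mul (c (C2.contDiffAt_cHess v0 l2 i j))))).sub (((c1.pow 2).inv₀ (pow_ne_zero 2 c2)).mul
      (((c (contDiffAt_dz (i := i) (ofReal_contDiffAt u0) l1)).add
        (c0.mul (c (contDiffAt_dz (i := i) (ofReal_contDiffAt v0) l1)))).mul
      ((c (contDiffAt_dzb (i := j) (ofReal_contDiffAt u0) l1)).add
        (c0.mul (c (contDiffAt_dzb (i := j) (ofReal_contDiffAt v0) l1))))))).sub
    (continuousAt_const (y := cHess (fun z => Real.log (u (e.symm z))) (e x) i j))).norm.eventually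
    (Iic_mem_nhds (a := ε) (by
      have := cHess_la (t := 0) u0 v0 (by simpa [he.left_inv] using h0) i j
      simp only [zero_mul, add_zero] at this
      simpa [this] using hε))
  have h3 : ContinuousAt (fun p : ℝ × W => u p.2 + p.1 * v p.2) (0, x) :=
    (hu.self_of_nhds.cont.comp_of_eq continuousAt_snd rfl).add
      (continuousAt_fst.mul (hv.self_of_nhds.cont.comp_of_eq continuousAt_snd rfl))
  filter_upwards [eventually_all.2 fun i => eventually_all.2 (h2 i), continuousAt_snd.eventually hu,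
    continuousAt_snd.eventually hv, continuousAt_snd.eventually (At.near he),
    h3.eventually (lt_mem_nhds (show 0 < u x + 0 * v x by simpa using h0))] with p k1 k2 k3 k4 k5
  have k6 : Sm n (fun y => Real.log (u y + p.1 * v y)) p.2 := fun e he =>
    ((k2 e he).add (contDiffAt_const.mul (k3 e he))).log (by simpa [he.left_inv] using k5.ne')
  refine spsh_of_chart k4 k6 (h _ (cHess_isHermitian (two (k6 e k4))) fun i j => ?_)
  rw [cHess_la (k2 e k4) (k3 e k4) (by simpa [k4.left_inv] using k5)]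
  exact k1 i j

theorem bump [T2Space W] {V : Set W} (hV : V ∈ 𝓝 x) : ∃ w : W → ℝ, (∀ y, Sm n w y) ∧
    (∀ y, 0 ≤ w y) ∧ (∀ y ∉ V, ∀ᶠ z in 𝓝 y, w z = 0) ∧
    ∀ᶠ y in 𝓝 x, w y = 1 + ∑ a, ‖chartAt (Cm n) x y a‖ ^ 2 := by
  classical
  have he := at_chart (n := n) x
  set e := chartAt (Cm n) x
  obtain ⟨R, hR, hs⟩ := Metric.nhds_basis_closedBall.mem_iff.1
    (inter_mem he.nhds_target (At.tendsto_symm he hV))
  let b : ContDiffBump (e x) := ⟨R / 2, R, by positivity, by linarith⟩
  have hc : IsClosed (e.symm '' Metric.closedBall (e x) R) :=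
    ((isCompact_closedBall _ _).image_of_continuousOn
      (e.continuousOn_symm.mono fun y a => (hs a).1)).isClosed
  let B : Cm n → ℝ := fun z => b z * (1 + ∑ a, ‖z a‖ ^ 2)
  have hB : ContDiff ℝ ∞ B := b.contDiff.mul (contDiff_const.add (ContDiff.sum fun a _ =>
    ((contDiff_apply ℝ ℂ a).norm_sq ℂ)))
  have h0 : ∀ y ∉ e.symm '' Metric.closedBall (e x) R,
      ∀ᶠ z in 𝓝 y, (if z ∈ e.source then B (e z) else 0) = 0 := fun y hy => by
    filter_upwards [hc.isOpen_compl.mem_nhds hy] with z hz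
    split_ifs with k
    · exact mul_eq_zero_of_left (b.zero_of_le_dist (le_of_not_ge fun a =>
        hz ⟨e z, a, e.left_inv k⟩)) _
    · rfl
  refine ⟨fun z => if z ∈ e.source then B (e z) else 0, fun y => ?_, fun y => ?_,
    fun y hy => h0 y fun ⟨z, a, k⟩ => hy (k ▸ (hs a).2), ?_⟩
  · by_cases k : y ∈ e.source
    · exact (sm_of_chart ⟨he.1, k⟩ hB.contDiffAt).congr
        ((e.open_source.eventually_mem k).mono fun z a => (if_pos a).symm)
    · exact Sm.congr (u := fun _ => 0) (fun _ _ => contDiffAt_const)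
        ((h0 y fun ⟨z, a, l⟩ => k (l ▸ e.map_target (hs a).1)).mono fun _ a => a.symm)
  · dsimp only
    split_ifs
    · exact mul_nonneg b.nonneg (by positivity)
    · rfl
  · filter_upwards [At.near he, (e.continuousAt he.2).eventually
      (Metric.closedBall_mem_nhds _ (half_pos hR))] with y k l
    rw [if_pos k.2]
    exact (congrArg (· * _) (b.one_of_mem_closedBall l)).trans (one_mul _)

end Vale.Agent.P287T.Pj
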