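import Vale.Agent.P287T.Pj.Mf
import Mathlib.Analysis.Normed.Module.Connected

/-!
# From a projective surface of matrix factorizations to the family over the cone
-/

open Module Function Filter Topology

noncomputable section

namespace Vale.Agent.P287T.Pj

open Vale.Agent.P287T.Cy Vale.Agent.P287T.Df Vale.Agent.P287T.Au Vale.Agent.P287Q
  Vale.Agent.P287Q.Cub

theorem cf_scl {ν : ℕ} (t : Unit → ℂ) (z : Fin ν → ℂ) : scl (π₀ (Fin ν)) t z = t () • z := rfl

section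

variable {n ν : ℕ} {X : Type} [TopologicalSpace X] [ChartedSpace (Fin n → ℂ) X]
  {Z : Set (Fin ν → ℂ)} {q : (Fin ν → ℂ) → X}

theorem Cone.isConnected [ConnectedSpace X] (h : Cone n Z q) : IsConnected Z := by
  have hu : IsPreconnected {t : Unit → ℂ | IsUnit t} := by
    have : {t : Unit → ℂ | IsUnit t} = Set.univ.pi fun _ => {0}ᶜ :=
      Set.ext fun _ => by simp [unit_iff]
    rw [this]
    exact isPreconnected_univ_pi fun _ =>
      (isConnected_compl_singleton_of_one_lt_rank (by simp) (0 : ℂ)).isPreconnected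
  obtain ⟨x₀, h₀, -⟩ := h.surj (Classical.arbitrary X)
  refine ⟨⟨x₀, h₀⟩, isPreconnected_of_forall_constant fun f hf x hx y hy => ?_⟩
  obtain ⟨β, hβ⟩ := h.toQm.desc (f := f) fun t ht z hz => by
    have := hu.constant (f := fun s => f (scl (π₀ (Fin ν)) s z))
      (hf.comp (continuous_scl.comp (continuous_id.prodMk continuous_const)).continuousOn
        fun s hs => h.pv.inv s hs _ hz) ht isUnit_one
    rwa [scl_one] at this
  rw [← hβ x hx, ← hβ y hy]
  exact PreconnectedSpace.constant inferInstance (h.toQm.continuous hβ hf)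

theorem Cone.q_smul (h : Cone n Z q) {z : Fin ν → ℂ} (hz : z ∈ Z) {c : ℂ} (hc : c ≠ 0) :
    q (c • z) = q z := h.toQm.scl (t := fun _ => c) hz (unit_iff.2 fun _ => hc)

theorem Cone.q_ne (h : Cone n Z q) {z z' : Fin ν → ℂ} (hz : z ∈ Z) (hz' : z' ∈ Z)
    (hn : ∀ c : ℂ, z' ≠ c • z) : q z ≠ q z' := fun e =>
  ((h.eq_iff z hz z' hz').1 e).elim fun t a => hn (t ()) a.2

/-- The chart at `q z` extends to a holomorphic map on the ambient space, whose differential on the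
tangent space of the cone kills only the radial direction. -/
theorem Cone.coord (h : Cone n Z q) {z : Fin ν → ℂ} (hz : z ∈ Z) :
    ∃ a : (Fin ν → ℂ) → Fin n → ℂ, AnalyticAt ℂ a z ∧ a z = chartAt (Fin n → ℂ) (q z) (q z) ∧
      (∀ᶠ y in 𝓝[Z] z, (chartAt (Fin n → ℂ) (q z)).symm (a y) = q y) ∧
      (∀ v ∈ tn Z z, fderiv ℂ a z v = 0 → ∃ c : ℂ, v = c • z) ∧
      ∀ w, ∃ v ∈ tn Z z, fderiv ℂ a z v = w := by
  obtain ⟨σ, h1, h2⟩ := h.slc (q z)
  have h3 : q (σ (chartAt (Fin n → ℂ) (q z) (q z))) = q z :=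
    h2.self_of_nhds.trans ((chartAt (Fin n → ℂ) (q z)).left_inv (mem_chart_source _ _))
  obtain ⟨t, ht, h4⟩ := (h.eq_iff _ h1.mem0 _ hz).1 h3
  generalize chartAt (Fin n → ℂ) (q z) (q z) = x at h1 h2 h4 ⊢
  obtain ⟨τ, a, a1, a2, a3, a4, a5, a6⟩ := h1.exists_coord h.pv.toMC ht
  have h5 := h1.prm_at h.pv.toMC ht
  have h6 : ∀ u : (Unit → ℂ) × (Fin n → ℂ), fderiv ℂ a z
      (fderiv ℂ (fun p : (Unit → ℂ) × (Fin n → ℂ) => scl (π₀ (Fin ν)) p.1 (σ p.2)) (t, x) u) =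
        u.2 := by
    intro u
    have b1 := (a2.differentiableAt.hasFDerivAt.comp (t, x)
      h5.an.differentiableAt.hasFDerivAt).fderiv
    have b2 : (a ∘ fun p : (Unit → ℂ) × (Fin n → ℂ) => scl (π₀ (Fin ν)) p.1 (σ p.2)) =ᶠ[𝓝 (t, x)]
        Prod.snd := a5.mono fun p b => b.2
    rw [b2.fderiv_eq, fderiv_snd] at b1
    rw [h4]
    exact (congrArg (fun T : (Unit → ℂ) × (Fin n → ℂ) →L[ℂ] Fin n → ℂ => T u) b1).symm
  have h7 : ∀ v, v ∈ tn Z z ↔ ∃ u, fderiv ℂ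
      (fun p : (Unit → ℂ) × (Fin n → ℂ) => scl (π₀ (Fin ν)) p.1 (σ p.2)) (t, x) u = v := by
    intro v
    rw [h4]
    exact h5.mem_tn
  rw [← h4] at a1 a2 a3 a4 a6
  refine ⟨a, a2, a4, ?_, fun v hv h0 => ?_, fun w => ⟨_, (h7 _).2 ⟨(0, w), rfl⟩, h6 _⟩⟩
  · rw [eventually_nhdsWithin_iff]
    filter_upwards [a6, a1.continuousAt.eventually (a3.symm ▸ eventually_unit ht),
      a2.continuousAt.eventually (a4.symm ▸ h1.mem),
      a2.continuousAt.eventually (a4.symm ▸ h2)] with y b1 b2 b3 b4 b5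
    rw [← b4, ← h.toQm.scl b3 b2, b1 b5]
  · obtain ⟨u, rfl⟩ := (h7 v).1 hv
    rw [h6] at h0
    have b1 : fderiv ℂ (fun p : (Unit → ℂ) × (Fin n → ℂ) => σ p.2) (t, x) u = 0 := by
      have b2 := (HasFDerivAt.comp (f := Prod.snd) ((t, x) : (Unit → ℂ) × (Fin n → ℂ))
        h1.an.differentiableAt.hasFDerivAt hasFDerivAt_snd).fderiv
      refine (congrArg (fun T : (Unit → ℂ) × (Fin n → ℂ) →L[ℂ] Fin ν → ℂ => T u) b2).trans ?_
      rw [ContinuousLinearMap.comp_apply, ContinuousLinearMap.coe_snd', h0, map_zero]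
    refine ⟨u.1 () * (t ())⁻¹, ?_⟩
    have b3 : AnalyticAt ℂ (fun p : (Unit → ℂ) × (Fin n → ℂ) => σ p.2) (t, x) :=
      AnalyticAt.comp (f := Prod.snd) h1.an analyticAt_snd
    rw [hasFDerivAt_scl analyticAt_fst b3, b1, fderiv_fst, h4,
      cf_scl, cf_scl, cf_scl, smul_zero, add_zero, smul_smul,
      inv_mul_cancel_right₀ (unit_iff.1 ht ())]
    rfl

end

variable {W : S6}

/-- The family over the cone. -/
def cfOf (S : Srf W) {ν : ℕ} {Z : Set (Fin ν → ℂ)} {q : (Fin ν → ℂ) → S.X} (h : Cone 2 Z q) :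
    Cf W where
  ι := S.ι
  p := S.p
  ν := ν
  Z := Z
  pv := h.pv
  cn := h.isConnected
  O z := S.O (q z)
  smul z hz c hc := congrArg S.O (h.q_smul hz hc)
  orb z _ := S.orb (q z)
  ort z hz z' hz' hn := S.ort _ _ (h.q_ne hz hz' hn)
  loc z hz := by
    obtain ⟨a, a1, a2, a3, a4, -⟩ := h.coord hz
    obtain ⟨u, u1, u2, u3⟩ := S.loc (q z)
    rw [← a2] at u1 u2 u3
    refine ⟨u ∘ a, u1.comp a1, ?_, fun v hv ht => a4 v hv (u3 _ ?_)⟩
    · filter_upwards [a3, (a1.continuousAt.eventually u2).filter_mono nhdsWithin_le_nhds]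
        with y b c
      rwa [b] at c
    · rwa [fderiv_comp z u1.differentiableAt a1.differentiableAt] at ht

/-- **PROJ** follows from the abstract projectivity theorem. -/
theorem stProj_of (h : ∀ (S : Srf W) {κ : Type} [Fintype κ] (J : S.X → Submodule ℂ (κ → ℂ)),
    Fam 2 J → Alg 2 S.X) (S : Srf W) (Q : Pr) (hQ : S.All Q) : ∃ C : Cf W, C.All Q := by
  obtain ⟨κ, _, J, hJ⟩ := srf_fam S
  obtain ⟨ν, Z, q, hc⟩ := h S J hJ
  exact ⟨cfOf S hc, fun z _ d hd => hQ (q z) d hd⟩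

end Vale.Agent.P287T.Pj
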