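import Vale.Agent.P287T.Pj.St

/-!
# Projectivity of a compact surface: the cone over an embedded manifold
-/

open Set Filter Function Topology Module

namespace Vale.Agent.P287T.Pj

open P287Q P287Q.Cub

variable (n : ℕ) {ν : ℕ} {X ι : Type} [TopologicalSpace X] [ChartedSpace (Fin n → ℂ) X]

/-- local homogeneous coordinates of an embedding in a projective space -/
structure Em (U : ι → Set X) (P : ι → X → Fin ν → ℂ) : Prop where
  opn : ∀ i, IsOpen (U i)
  cov : ∀ x, ∃ i, x ∈ U i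
  hol : ∀ i, ∀ x ∈ U i, Ho n (P i) x
  ne : ∀ i, ∀ x ∈ U i, P i x ≠ 0
  rel : ∀ i i', ∀ x ∈ U i, ∀ y ∈ U i', (∀ j k, P i x j * P i' y k = P i x k * P i' y j) ↔ x = y
  imm : ∀ i, ∀ x ∈ U i, ∀ v (a : ℂ), dH n (P i) x v = a • P i x → v = 0

variable {n} {U : ι → Set X} {P : ι → X → Fin ν → ℂ} {i : ι} {x y : X} {z w : Fin ν → ℂ}

theorem Ho.cont {E : Type} [NormedAddCommGroup E] [NormedSpace ℂ E] {f : X → E} (h : Ho n f x) :
    ContinuousAt f x :=
  (h.continuousAt.comp ((chartAt _ x).continuousAt (mem_chart_source _ x))).congr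
    (((chartAt _ x).eventually_left_inverse (mem_chart_source _ x)).mono fun _ a => congrArg f a)

theorem smul_of (hw : w ≠ 0) (h : ∀ j k, z j * w k = z k * w j) : ∃ t : ℂ, z = t • w :=
  let ⟨k, a⟩ := ne_iff.1 hw
  ⟨z k / w k, funext fun j => by
    rw [Pi.smul_apply, smul_eq_mul, div_mul_eq_mul_div, eq_div_iff a, h]⟩

variable (U P) in
/-- `z` is a multiple of the coordinates of `x` -/
def Rl (z : Fin ν → ℂ) (x : X) : Prop := ∀ i, x ∈ U i → ∃ t : ℂ, z = t • P i x

namespace Em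

variable (h : Em n U P)
include h

theorem rl (a : x ∈ U i) (t : ℂ) : Rl U P (t • P i x) x := fun i' b =>
  let ⟨s, c⟩ := smul_of (h.ne i' x b) ((h.rel i i' x a x b).2 rfl)
  ⟨t * s, by rw [c, mul_smul]⟩

theorem uniq (hz : z ≠ 0) (a : Rl U P z x) (b : Rl U P z y) : x = y := by
  obtain ⟨i, c⟩ := h.cov x
  obtain ⟨i', d⟩ := h.cov y
  obtain ⟨t, e⟩ := a i c
  obtain ⟨s, f⟩ := b i' d
  refine (h.rel i i' x c y d).1 fun j k => mul_left_cancel₀ (mul_ne_zero
    (left_ne_zero_of_smul (e ▸ hz)) (left_ne_zero_of_smul (f ▸ hz))) ?_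
  have u : ∀ j, t * P i x j = s * P i' y j := fun j => congrFun (e.symm.trans f) j
  linear_combination (s * P i' y k) * u j - (s * P i' y j) * u k

theorem closed : IsClosed {p : (Fin ν → ℂ) × X | Rl U P p.1 p.2} := by
  refine isClosed_iff_frequently.2 fun p a i b => smul_of (h.ne i _ b) fun j k => ?_
  have c : ∀ j k, ContinuousAt (fun p : (Fin ν → ℂ) × X => p.1 j * P i p.2 k) p := fun j k =>
    ((continuous_apply j).comp continuous_fst).continuousAt.mul
      ((continuous_apply k).continuousAt.comp ((h.hol i _ b).cont.comp continuousAt_snd))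
  refine tendsto_nhds_unique_of_frequently_eq (c j k) (c k j) ((a.and_eventually
    (continuousAt_snd.eventually ((h.opn i).mem_nhds b))).mono fun r d => ?_)
  obtain ⟨t, e⟩ := d.1 i d.2
  simp only [e, Pi.smul_apply, smul_eq_mul]
  ring

theorem alg [CompactSpace X] [Nonempty X] : Alg n X := by
  let Z : Set (Fin ν → ℂ) := {z | z ≠ 0 ∧ ∃ x, Rl U P z x}
  let q : (Fin ν → ℂ) → X := fun z => Classical.epsilon (Rl U P z)
  have q1 : ∀ z ∈ Z, Rl U P z (q z) := fun z a => Classical.epsilon_spec a.2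
  have m : ∀ {i x} {t : ℂ}, x ∈ U i → t ≠ 0 → t • P i x ∈ Z ∧ q (t • P i x) = x := fun a b =>
    have c := smul_ne_zero b (h.ne _ _ a)
    ⟨⟨c, _, h.rl a _⟩, h.uniq c (q1 _ ⟨c, _, h.rl a _⟩) (h.rl a _)⟩
  have ex : ∀ z ∈ Z, ∀ i, q z ∈ U i → ∃ t : ℂ, t ≠ 0 ∧ z = t • P i (q z) := fun z a i b =>
    (q1 z a i b).imp fun t c => ⟨left_ne_zero_of_smul (c ▸ a.1), c⟩
  have us : ∀ {z : Fin ν → ℂ}, z ∈ Ust (π₀ _) ↔ z ≠ 0 :=
    ⟨fun a => let ⟨j, _, b⟩ := a (); ne_iff.2 ⟨j, b⟩, fun a _ =>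
      let ⟨j, b⟩ := ne_iff.1 a; ⟨j, rfl, b⟩⟩
  have sc : ∀ {t : Unit → ℂ}, IsUnit t → ∀ z ∈ Z, scl (π₀ _) t z ∈ Z ∧ q (scl (π₀ _) t z) = q z :=
    fun {t} a z b => by
      obtain ⟨i, c⟩ := h.cov (q z)
      obtain ⟨s, d, e⟩ := ex z b i c
      have := m c (mul_ne_zero (unit_iff.1 a ()) d)
      rwa [mul_smul, ← e] at this
  have mc : MC (π₀ _) Z := ⟨fun _ a => us.2 a.1, fun t a z b => (sc a z b).1, fun z a b => by
    obtain ⟨p, c, rfl⟩ := (isClosedMap_fst_of_compactSpace _ h.closed).closure_subset_iff.2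
      (fun z (a : z ∈ Z) => a.2.elim fun x b => ⟨(z, x), b, rfl⟩) a
    exact ⟨us.1 b, _, c⟩⟩
  have ct : ∀ z ∈ Z, Tendsto q (𝓝[Z] z) (𝓝 (q z)) := fun z a =>
    tendsto_nhds_of_unique_mapClusterPt fun x b => by
      obtain ⟨F, c, d⟩ := mapClusterPt_iff_ultrafilter.1 b
      exact h.uniq a.1 (h.closed.mem_of_tendsto (f := fun w => (w, q w))
        (Tendsto.prodMk_nhds (c.trans nhdsWithin_le_nhds) d)
        (eventually_mem_nhdsWithin.filter_mono c |>.mono q1)) (q1 z a)
  have sl : ∀ i, ∀ x ∈ U i, Slc (π₀ _) Z (fun z => P i ((chartAt _ x).symm z))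
      (chartAt (Fin n → ℂ) x x) := fun i x a => by
    have he := mem_chart_source (Fin n → ℂ) x
    have hP : AnalyticAt ℂ _ _ := h.hol i x a
    have hd := h.imm i x a
    simp only [dH] at hd
    set e := chartAt (Fin n → ℂ) x
    have e0 := e.left_inv he
    have an := an_scl (π := π₀ (Fin ν)) (analyticAt_fst (p := ((1 : Unit → ℂ), e x)))
      (hP.comp (f := Prod.snd) (x := (1, e x)) analyticAt_snd)
    refine ⟨an, (injective_iff_map_eq_zero _).2 fun ⟨t, v⟩ b => ?_, le_antisymm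
      (tendsto_nhdsWithin_iff.2 ⟨an.continuousAt, ?_⟩) ?_⟩
    · rw [Slc.fderiv_eq hP, e0] at b
      obtain rfl := hd v (-t ()) ((eq_neg_of_add_eq_zero_right b).trans (neg_smul (t ()) _).symm)
      rw [map_zero, add_zero] at b
      exact Prod.ext (funext fun _ => (smul_eq_zero.1 b).resolve_right (h.ne i x a)) rfl
    · filter_upwards [continuousAt_fst.eventually (eventually_unit isUnit_one),
        continuousAt_snd.eventually ((e.tendsto_symm he).eventually ((h.opn i).mem_nhds a))]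
        with p b c using (m c (unit_iff.1 b ())).1
    · obtain ⟨k, b⟩ := ne_iff.1 (h.ne i x a)
      replace b : P i x k ≠ 0 := b
      have c := m a one_ne_zero
      rw [one_smul] at c
      have d := ct _ c.1
      rw [c.2] at d
      have f := ((continuous_apply k).tendsto _).comp ((h.hol i x a).cont.tendsto.comp d)
      have g := (((continuous_apply k).tendsto (P i x)).mono_left
        (nhdsWithin_le_nhds (s := Z))).div f b
      rw [div_self b] at g
      simp only [scl_one, e0]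
      refine le_trans (le_of_eq (map_id.symm.trans (Filter.map_congr ?_))) (map_mono
        (Tendsto.prodMk_nhds (tendsto_pi_nhds.2 fun _ => g) ((e.continuousAt he).tendsto.comp d)))
      filter_upwards [self_mem_nhdsWithin, d.eventually ((h.opn i).mem_nhds a),
        d.eventually (e.open_source.mem_nhds he), f.eventually_ne b] with w u1 u2 u3 u4
      obtain ⟨t, -, u5⟩ := ex w u1 i u2
      change w = (w k / P i (q w) k) • P i (e.symm (e (q w)))
      rw [e.left_inv u3, div_eq_of_eq_mul (b := P i (q w) k) u4 (congrFun u5 k)]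
      exact u5
  refine ⟨ν, Z, q, ⟨.of_slc mc fun z a => ?_, fun x => ?_, fun z a w b => ⟨fun c => ?_, ?_⟩,
    fun z a => le_antisymm (ct z a) ?_⟩, fun x => ?_⟩
  · obtain ⟨i, b⟩ := h.cov (q z)
    obtain ⟨t, -, c⟩ := ex z a i b
    refine ⟨_, _, _, inferInstance, _, _, fun _ => t, sl i _ b, by simp, ?_⟩
    rw [(chartAt _ _).left_inv (mem_chart_source _ _)]
    exact c
  · obtain ⟨i, b⟩ := h.cov x
    exact ⟨_, m b one_ne_zero⟩
  · obtain ⟨i, d⟩ := h.cov (q z)
    obtain ⟨t, e, f⟩ := ex z a i d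
    obtain ⟨s, g, l⟩ := ex w b i (c ▸ d)
    refine ⟨fun _ => s / t, unit_iff.2 fun _ => div_ne_zero g e, l.trans ?_⟩
    change _ = (s / t) • z
    rw [← c]
    conv_rhs => rw [f, smul_smul, div_mul_cancel₀ _ e]
  · rintro ⟨t, c, rfl⟩
    exact (sc c z a).2.symm
  · obtain ⟨i, b⟩ := h.cov (q z)
    obtain ⟨t, c, d⟩ := ex z a i b
    have o := (h.opn i).eventually_mem b
    refine le_trans (le_of_eq (map_id.symm.trans (map_congr (o.mono fun y e => (m e c).2.symm))))
      (map_mono (tendsto_nhdsWithin_iff.2 ⟨?_, o.mono fun y e => (m e c).1⟩ :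
        Tendsto (fun y => t • P i y) _ _))
    conv_rhs => rw [d]
    exact (h.hol i _ b).cont.const_smul t
  · obtain ⟨i, b⟩ := h.cov x
    refine ⟨_, sl i x b, ?_⟩
    filter_upwards [((chartAt _ x).tendsto_symm (mem_chart_source _ x)).eventually
      ((h.opn i).mem_nhds b)] with z c
    simpa using (m c one_ne_zero).2

end Em

end Vale.Agent.P287T.Pj
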