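import Vale.Agent.P287T.Pj.Fam
import Vale.Agent.P287T.Pj.Emb
import Vale.Agent.P287T.Kd.Kod

/-!
# Projectivity of a compact surface
-/

open scoped Manifold ContDiff Topology
open Set Filter Function
open Vale.Agent.P272.K Vale.Agent.P277Z Vale.Agent.P285.H281.FD
open Vale.Agent.P285.R2.H80 (Positive)

namespace Vale.Agent.P287T.Pj

variable {n : ℕ} {X : Type} [TopologicalSpace X] [T2Space X] [CompactSpace X]

/-- The theorem of Kodaira. -/
theorem alg_of_positive [Nonempty X] [ChartedSpace (Cm n) X] [IsManifold 𝓘(ℂ, Cm n) ω X] {L : Bd X}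
    (hL : IsLB n L) (h : Positive n L) : Alg n X := by
  obtain ⟨k, -, N, s, hs⟩ := Kd.ample_of_positive hL h
  have an : ∀ i, ∀ x ∈ L.U i, ∀ j, AnalyticAt ℂ (fun z => s j i ((chartAt (Cm n) x).symm z))
      (chartAt (Cm n) x x) := fun i x a j => ((hs.sec j).holo i _ x (at_chart x) a).analyticAt
  refine Em.alg (U := L.U) (P := fun i x j => s j i x) ⟨hL.isOpen, hL.cover,
    fun i x a => analyticAt_pi_iff.2 (an i x a), fun i x a => ne_iff.2 (hs.ne_zero i x a),
    fun i i' x a y b => ⟨hs.injective i i' x y a b, fun e j l => ?_⟩, fun i x a v c e => ?_⟩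
  · subst e
    rw [(hs.sec j).change i i' x a b, (hs.sec l).change i i' x a b]
    ring
  · obtain ⟨l, b⟩ := hs.ne_zero i x a
    have he := at_chart (n := n) x
    have d : ∀ j, fderiv ℂ (fun z => s j i ((chartAt (Cm n) x).symm z)) (chartAt (Cm n) x x) v =
        c * s j i x := fun j => (congrFun (DFunLike.congr_fun
          (fderiv_pi fun j => (an i x a j).differentiableAt) v) j).symm.trans (congrFun e j)
    refine hs.immersive i _ x he a l b v fun j => ?_
    have f := (an i x a j).differentiableAt.hasFDerivAt.fun_mul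
      ((hasDerivAt_inv (he.left_inv.symm ▸ b)).comp_hasFDerivAt _
        (an i x a l).differentiableAt.hasFDerivAt)
    simp only [div_eq_mul_inv]
    erw [f.fderiv]
    simp only [_root_.add_apply, _root_.smul_apply, smul_eq_mul, comp_apply, he.left_inv, d]
    field_simp
    ring

/-- **A compact surface with an immersive family of subspaces is projective.** -/
theorem proj [ConnectedSpace X] [ChartedSpace (Fin 2 → ℂ) X] [IsManifold 𝓘(ℂ, Fin 2 → ℂ) ω X]
    {κ : Type} [Fintype κ] {J : X → Submodule ℂ (κ → ℂ)} (h : Fam 2 J) : Alg 2 X :=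
  let ⟨_, _, _, _, a⟩ := h.dat
  alg_of_positive a.isLB a.positive

end Vale.Agent.P287T.Pj
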