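import Vale.Agent.P277Z.Luf.Hol
import Mathlib.RingTheory.Ideal.KrullsHeightTheorem

/-!
# Projectivity of a compact surface: removing the common factor of finitely many germs
-/

open scoped Manifold ContDiff Topology
open Set Filter IsLocalRing
open Vale.Agent.P272.K (Cm Chart At)
open Vale.Agent.P298.H941 (O ev0)
open Vale.Agent.P277Z Vale.Agent.P277Z.Oka

namespace Vale.Agent.P287T.Pj

theorem rad_of {R : Type} [CommRing R] [IsDomain R] [IsNoetherianRing R]
    [UniqueFactorizationMonoid R] [IsLocalRing R] (hm : (maximalIdeal R).height ≤ 2) {I : Ideal R}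
    (h0 : I ≠ ⊥) (h : ∀ p, Prime p → ¬ I ≤ Ideal.span {p}) : maximalIdeal R ≤ I.radical := by
  rw [Ideal.radical_eq_sInf]
  refine le_sInf fun P ⟨h1, h2⟩ => by_contra fun h3 => ?_
  obtain ⟨p, h4, h5⟩ := h2.exists_mem_prime_of_ne_bot fun e => h0 (le_bot_iff.1 (e ▸ h1))
  have := (Ideal.span_singleton_prime h5.ne_zero).2 h5
  have a1 := Ideal.height_add_one_le_of_lt_of_isPrime (I := ⊥) (J := Ideal.span {p})
    (bot_lt_iff_ne_bot.2 (mt Ideal.span_singleton_eq_bot.1 h5.ne_zero))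
  have a2 := Ideal.height_add_one_le_of_lt_of_isPrime (I := Ideal.span {p}) (J := P)
    (lt_of_le_of_ne ((Ideal.span_singleton_le_iff_mem _).2 h4) fun e => h p h5 (e ▸ h1))
  have a3 := Ideal.height_add_one_le_of_lt_of_isPrime (I := P) (J := maximalIdeal R)
    (lt_of_le_of_ne (le_maximalIdeal h2.ne_top) fun e => h3 e.ge)
  rw [Ideal.height_bot] at a1
  have a4 : ((0 + 1 + 1 + 1 : ℕ∞)) ≤ 2 :=
    le_trans (add_le_add_left (le_trans (add_le_add_left a1 1) a2) 1) (a3.trans hm)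
  exact absurd a4 (by decide)

theorem height_le (n : ℕ) : (maximalIdeal (O (Cm n))).height ≤ n := by
  classical
  have hc : ∀ i, AnalyticAt ℂ (fun z : Cm n => z i) 0 := fun i =>
    (ContinuousLinearMap.proj (R := ℂ) (φ := fun _ : Fin n => ℂ) i).analyticAt 0
  have h1 : idl 0 (fun i (z : Cm n) => z i) ≤ maximalIdeal _ :=
    Ideal.span_le.2 (range_subset_iff.2 fun i =>
      (P298.H941.mem_maximalIdeal _).2 (ev0_gm (hc i)))
  have h2 : maximalIdeal (O (Cm n)) ≤ (idl 0 fun i (z : Cm n) => z i).radical := fun a ha => by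
    obtain ⟨f, hf, rfl⟩ := gm_surj 0 a
    rw [P298.H941.mem_maximalIdeal, ev0_gm hf] at ha
    obtain ⟨N, hN⟩ := nul_all (Cm n) (Fin n) 0 _ hc f hf (.of_forall fun y hy => by
      rwa [show y = 0 from funext hy])
    exact ⟨N, gm_pow hf N ▸ (in_iff hc (hf.fun_pow N)).1 hN⟩
  refine (Ideal.height_le_card_of_mem_minimalPrimes_span (finite_range fun i =>
    gm (0 : Cm n) fun z => z i) ⟨⟨inferInstance, h1⟩, fun P hP _ =>
      h2.trans (hP.1.radical_le_iff.2 hP.2)⟩).trans ?_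
  rw [← image_univ]
  exact Nat.cast_le.2 ((ncard_image_le finite_univ).trans (by simp))

variable {W : Type} [TopologicalSpace W] [ChartedSpace (Cm 2) W] [IsManifold 𝓘(ℂ, Cm 2) ω W]
  {ι : Type} [Fintype ι] {x : W}

/-- After the division by a common factor the common zeros are isolated. -/
theorem prim {A₀ : ι → W → ℂ} (h : ∀ j, Hol 2 (A₀ j) x) {i : ι} (h0 : Nz (A₀ i) x) :
    ∃ (d : W → ℂ) (A : ι → W → ℂ), Hol 2 d x ∧ Nz d x ∧ (∀ j, Hol 2 (A j) x) ∧
      ∀ᶠ y in 𝓝 x, (∀ j, A₀ j y = d y * A j y) ∧ (y ≠ x → ∃ j, A j y ≠ 0) := by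
  classical
  have he := at_chart (n := 2) x
  set e := chartAt (Cm 2) x
  let _ : NormalizedGCDMonoid (O (Cm 2)) := Classical.arbitrary _
  obtain ⟨g, g1, g2⟩ := Finset.univ.extract_gcd (fun j => gW e x (A₀ j)) ⟨i, Finset.mem_univ _⟩
  obtain ⟨d, hd, e1⟩ := gW_surj he (Finset.univ.gcd fun j => gW e x (A₀ j))
  choose A hA e2 using fun j => gW_surj he (g j)
  have k : ∀ j, ∀ᶠ y in 𝓝 x, A₀ j y = d y * A j y := fun j =>
    (gW_eq_iff he (h j) (hd.mul (hA j))).1 (by
      rw [gW_mul he hd (hA j), e1, e2]; exact g1 j (Finset.mem_univ _))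
  have k0 : Nz (A i) x := fun a => h0 (by
    filter_upwards [a, k i] with y b c using by rw [c, b, mul_zero])
  have hm := rad_of (height_le 2) (I := idl (e x) fun j z => A j (e.symm z)) (fun a =>
    (gW_ne_zero he (hA i)).2 k0 (Ideal.span_eq_bot.1 a _ ⟨i, rfl⟩)) fun p hp a =>
      hp.not_dvd_one (g2 ▸ Finset.dvd_gcd fun j _ =>
        Ideal.mem_span_singleton.1 (a (Ideal.subset_span ⟨j, e2 j⟩)))
  have hc : ∀ l, ∀ᶠ z in 𝓝 (e x), (∀ j, A j (e.symm z) = 0) → z l = e x l := fun l => by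
    have a : AnalyticAt ℂ (fun z : Cm 2 => z l - e x l) (e x) :=
      ((ContinuousLinearMap.proj (R := ℂ) (φ := fun _ : Fin 2 => ℂ) l).analyticAt _).sub
        analyticAt_const
    obtain ⟨N, hN⟩ := hm ((P298.H941.mem_maximalIdeal _).2 ((ev0_gm a).trans (sub_self _)))
    rw [← gm_pow a] at hN
    obtain ⟨c, -, b⟩ := (in_iff (fun j => hA j e he) (a.fun_pow N)).2 hN
    filter_upwards [b] with z u v
    exact sub_eq_zero.1 (eq_zero_of_pow_eq_zero (n := N) (by simpa [v] using u))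
  refine ⟨d, A, hd, fun a => h0 ?_, hA, (eventually_all.2 k).and ?_⟩
  · filter_upwards [a, k i] with y b c using by rw [c, b, zero_mul]
  · filter_upwards [(e.continuousAt he.2).eventually (eventually_all.2 hc), At.near he]
      with y a b c
    by_contra! f
    exact c (e.injOn b.2 he.2 (funext fun l => a l fun j => by rw [e.left_inv b.2, f]))

end Vale.Agent.P287T.Pj
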