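import Mathlib.LinearAlgebra.Matrix.Rank
import Mathlib.LinearAlgebra.Matrix.ToLinearEquiv
import Mathlib.LinearAlgebra.Matrix.Adjugate
import Mathlib.Data.Complex.Basic

/-!
# Projectivity of a compact surface: the Pluecker coordinates of a subspace
-/

open scoped Matrix
open Set Function Module

namespace Vale.Agent.P287T.Pj

variable {κ ι : Type} {k : ℕ} {J : Submodule ℂ (κ → ℂ)} {x x' : Fin k → κ → ℂ} {y : κ → ℂ}

/-- the minors -/
noncomputable def pl (x : Fin k → κ → ℂ) (K : Fin k → κ) : ℂ := (Matrix.of fun i j => x i (K j)).det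

theorem pl_up (x : Fin k → κ → ℂ) (K : Fin k → κ) (j : Fin k) (c : κ) : pl x (update K j c) =
    (Matrix.of fun i j => x i (K j)).cramer (fun i => x i c) j := by
  rw [Matrix.cramer_apply]
  refine congrArg Matrix.det (Matrix.ext fun a b => ?_)
  by_cases e : b = j <;> simp [e]

variable [Fintype κ]

theorem pl_orth (h : ∀ i, x i ⬝ᵥ y = 0) (K : Fin k → κ) (j : Fin k) :
    ∑ c, pl x (update K j c) * y c = 0 := by
  have := congrFun (map_sum (Matrix.of fun i j => x i (K j)).cramer
    (fun c => y c • fun i => x i c) Finset.univ) j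
  rw [show (∑ c, y c • fun i => x i c) = 0 from funext fun i => by
    simpa [dotProduct, mul_comm] using h i, map_zero] at this
  simpa [pl_up, mul_comm] using this.symm

theorem pl_or (h : finrank ℂ J ≤ k) (hx : ∀ i, x i ∈ J) :
    (∀ K, pl x K = 0) ∨ ∀ y ∈ J, ∃ t : Fin k → ℂ, ∀ c, y c = ∑ i, t i * x i c := by
  by_cases a : LinearIndependent ℂ x
  · refine .inr fun y hy => ?_
    rw [← Submodule.eq_of_le_of_finrank_le (Submodule.span_le.2 (range_subset_iff.2 hx))
      (by rwa [finrank_span_eq_card a, Fintype.card_fin]),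
      Submodule.mem_span_range_iff_exists_fun] at hy
    exact hy.imp fun t e c => by simp [← e]
  · obtain ⟨t, b, i, c⟩ := Fintype.not_linearIndependent_iff.1 a
    exact .inl fun K => Matrix.exists_vecMul_eq_zero_iff.1 ⟨t, ne_iff.2 ⟨i, c⟩, funext fun j => by
      simpa [Matrix.vecMul, dotProduct] using congrFun b (K j)⟩

theorem pl_cr (h : finrank ℂ J ≤ k) (hx : ∀ i, x i ∈ J) (hy : y ∈ J) (K : Fin k → κ) (c : κ) :
    y c * pl x K = ∑ j, y (K j) * pl x (update K j c) := by
  rcases pl_or h hx with a | a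
  · simp [a]
  · obtain ⟨t, e⟩ := a y hy
    have := congrArg (t ⬝ᵥ ·) ((Matrix.of fun i j => x i (K j)).mulVec_cramer fun i => x i c)
    simp only [Matrix.dotProduct_mulVec, dotProduct_smul, smul_eq_mul] at this
    simp only [e, pl_up]
    exact (mul_comm _ _).trans this.symm

theorem pl_rel (h : finrank ℂ J ≤ k) (hx : ∀ i, x i ∈ J) (hx' : ∀ i, x' i ∈ J)
    (K K' : Fin k → κ) : pl x K * pl x' K' = pl x K' * pl x' K := by
  rcases pl_or h hx with a | a
  · simp [a]
  · choose T e using fun i => a _ (hx' i)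
    have : ∀ K, pl x' K = (Matrix.of T).det * pl x K := fun K => by
      rw [pl, pl, ← Matrix.det_mul]
      exact congrArg Matrix.det (Matrix.ext fun i j => e i (K j))
    rw [this, this]
    ring

theorem rows {α β : Type} [Fintype α] [Fintype β] {A : Matrix α β ℂ} (h : k ≤ A.rank) :
    ∃ r : Fin k → α, LinearIndependent ℂ (A.submatrix r id).row := by
  obtain ⟨κ, r, h1, h2, h3⟩ := exists_linearIndependent' ℂ A.row
  have : Finite κ := Finite.of_injective r h1
  have := Fintype.ofFinite κ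
  obtain ⟨e⟩ : Nonempty (Fin k ↪ κ) := Embedding.nonempty_of_card_le (by
    rwa [Fintype.card_fin, ← finrank_span_eq_card h3, h2, ← Matrix.rank_eq_finrank_span_row])
  exact ⟨r ∘ e, h3.comp e e.injective⟩

theorem exists_pl [Fintype ι] {f : ι → κ → ℂ} (h : k ≤ finrank ℂ (Submodule.span ℂ (range f))) :
    ∃ p : (Fin k → ι) × (Fin k → κ), pl (fun i => f (p.1 i)) p.2 ≠ 0 := by
  obtain ⟨r, hr⟩ := rows (A := Matrix.of f) (k := k) (by rwa [Matrix.rank_eq_finrank_span_row])
  obtain ⟨c, hc⟩ := rows (A := ((Matrix.of f).submatrix r id).transpose) (k := k)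
    (by rw [Matrix.rank_transpose, hr.rank_matrix, Fintype.card_fin])
  exact ⟨(r, c), ((Matrix.isUnit_iff_isUnit_det _).1 (Matrix.linearIndependent_cols_iff_isUnit
    (A := (Matrix.of f).submatrix r c).1 hc)).ne_zero⟩

theorem le_of_pl (hx : ∀ i, x i ∈ J) {K : Fin k → κ} (h : pl x K ≠ 0) : k ≤ finrank ℂ J := by
  have a : LinearIndependent ℂ x := by_contra fun a => by
    obtain ⟨t, b, i, c⟩ := Fintype.not_linearIndependent_iff.1 a
    exact h (Matrix.exists_vecMul_eq_zero_iff.1 ⟨t, ne_iff.2 ⟨i, c⟩, funext fun j => by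
      simpa [Matrix.vecMul, dotProduct] using congrFun b (K j)⟩)
  simpa [finrank_span_eq_card a] using
    Submodule.finrank_mono (Submodule.span_le.2 (range_subset_iff.2 hx))

end Vale.Agent.P287T.Pj
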