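import Vale.Agent.P287T.Pj.St
import Vale.Agent.P287T.Pj.Iso
import Vale.Agent.P287T.Pj.Pos
import Vale.Agent.P287T.Pj.Plk

/-!
# Projectivity of a compact surface: the meromorphic immersion of a family of subspaces
-/

open scoped Manifold ContDiff Topology Matrix
open Set Filter Function Module
open Vale.Agent.P272.K Vale.Agent.P277Z

namespace Vale.Agent.P287T.Pj

variable {n k : ℕ} {X κ : Type} [TopologicalSpace X] [Fintype κ] {J : X → Submodule ℂ (κ → ℂ)}
  {y : X}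

section

variable [ChartedSpace (Cm n) X] [IsManifold 𝓘(ℂ, Cm n) ω X] {A A' : (Fin k → κ) → X → ℂ}

theorem Ho.hol {f : X → κ → ℂ} (h : Ho n f y) (c : κ) : Hol n (fun z => f z c) y :=
  Hol.of_chart (at_chart y) (analyticAt_pi_iff.1 h c)

theorem hol_pl {f : Fin k → X → κ → ℂ} (h : ∀ i, Ho n (f i) y) (K : Fin k → κ) :
    Hol n (fun z => pl (fun i => f i z) K) y := by
  simp only [pl, Matrix.det_apply']
  exact Hol.sum _ fun σ _ => (hol_const _ y).mul (Hol.prod _ fun i _ => (h _).hol _)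

variable (n J) in
/-- `A` is generically a vector of Pluecker coordinates -/
structure Lc (A : (Fin k → κ) → X → ℂ) (y : X) : Prop where
  hol : ∀ K, Hol n (A K) y
  pl : ∀ᶠ z in gen {y}, ∃ (d : ℂ) (x : Fin k → κ → ℂ), d ≠ 0 ∧ (∀ i, x i ∈ J z) ∧
    ∀ K, pl x K = d * A K z

omit [IsManifold 𝓘(ℂ, Cm n) ω X] in
theorem Lc.rel (hk : ∀ z, finrank ℂ (J z) ≤ k) (h : Lc n J A y) (h' : Lc n J A' y)
    (K K' : Fin k → κ) : A K y * A' K' y = A K' y * A' K y := by
  refine eq_of_gen ((h.hol K).mul (h'.hol K')).cont ((h.hol K').mul (h'.hol K)).cont ?_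
  filter_upwards [h.pl, h'.pl] with z ⟨d, x, a, b, c⟩ ⟨d', x', a', b', c'⟩
  have := pl_rel (hk z) b b' K K'
  rw [c, c, c', c'] at this
  exact mul_left_cancel₀ (mul_ne_zero a a') (by linear_combination this)

theorem Lc.imm (hJ : Fam n J) (hk : ∀ z, finrank ℂ (J z) ≤ k) (h : Lc n J A y) {K : Fin k → κ}
    (h0 : A K y ≠ 0) : ∃ e : Chart n X, At e y ∧ ∀ v, (∀ K K',
      A K y * fderiv ℂ (fun z => A K' (e.symm z)) (e y) v =
        A K' y * fderiv ℂ (fun z => A K (e.symm z)) (e y) v) → v = 0 := by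
  obtain ⟨ι, _, f, b, f1, b1, e1, im⟩ := hJ y
  have he := at_chart (n := n) y
  refine ⟨_, he, fun v hv => im v fun i => ?_⟩
  set e := chartAt (Cm n) y
  have a1 : ∀ c, f i y c * A K y = ∑ j, f i y (K j) * A (update K j c) y := fun c => by
    refine eq_of_gen (((f1 i).hol c).mul (h.hol K)).cont
      (Hol.sum _ fun j _ => ((f1 i).hol _).mul (h.hol _)).cont ?_
    filter_upwards [h.pl, gen_of_nhds e1] with z ⟨d, x, a, b, l⟩ m
    have := pl_cr (y := f i z) (hk z) b (m.1 ▸ Submodule.subset_span ⟨i, rfl⟩) K c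
    simp only [l, mul_left_comm _ d, ← Finset.mul_sum] at this
    exact mul_left_cancel₀ a this
  have a2 : ∀ j, ∀ᶠ z in 𝓝 y, ∑ c, A (update K j c) z * b z c = 0 := fun j => by
    refine (Hol.sum _ fun c _ => (h.hol _).mul (b1.hol c)).eq_of_gen (hol_const 0 y) ?_
    filter_upwards [h.pl, gen_of_nhds e1] with z ⟨d, x, a, c, l⟩ m
    have := pl_orth (x := x) (y := b z) (fun i => by
      have t := m.1 ▸ c i
      obtain ⟨t, r⟩ := (Submodule.mem_span_range_iff_exists_fun ℂ).1 t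
      simp [← r, sum_dotProduct, m.2]) K j
    simp only [l, mul_assoc, ← Finset.mul_sum] at this
    exact (mul_eq_zero.1 this).resolve_left a
  have a3 : ∀ j, ∑ c, A (update K j c) y * dH n b y v c = 0 := fun j => by
    have d1 := HasFDerivAt.fun_sum (u := Finset.univ) fun c _ =>
      (h.hol (update K j c) e he).differentiableAt.hasFDerivAt.fun_mul
        (hasFDerivAt_pi'.1 b1.differentiableAt.hasFDerivAt c)
    have d2 := congrArg (· v) (d1.unique ((hasFDerivAt_const (0 : ℂ) _).congr_of_eventuallyEq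
      ((At.ev he).2 (a2 j))))
    have d0 : (chartAt (Fin n → ℂ) y).symm (e y) = y := he.left_inv
    simp only [he.left_inv, d0, _root_.sum_apply, _root_.add_apply, _root_.smul_apply, smul_eq_mul,
      Finset.sum_add_distrib, _root_.zero_apply] at d2
    have d3 : A K y * ∑ c, b y c * fderiv ℂ (fun z => A (update K j c) (e.symm z)) (e y) v = 0 := by
      rw [Finset.mul_sum, Finset.sum_congr rfl fun c _ => by
        rw [mul_left_comm, hv, ← mul_assoc, mul_comm (b y c)], ← Finset.sum_mul,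
        (a2 j).self_of_nhds, zero_mul]
    rw [(mul_eq_zero.1 d3).resolve_left h0, add_zero] at d2
    exact d2
  refine mul_left_cancel₀ h0 ?_
  rw [dotProduct, Finset.mul_sum, Finset.sum_congr rfl fun c _ => by
    rw [← mul_assoc, mul_comm (A K y), a1, Finset.sum_mul], Finset.sum_comm]
  simp only [mul_assoc, ← Finset.mul_sum, a3, mul_zero, Finset.sum_const_zero]

theorem exists_nz {ι : Type} [Fintype ι] {f : ι → X → κ → ℂ}
    (e1 : ∀ᶠ z in 𝓝 y, J z = Submodule.span ℂ (range fun i => f i z))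
    (h : ∃ᶠ z in 𝓝 y, k ≤ finrank ℂ (J z)) :
    ∃ p : (Fin k → ι) × (Fin k → κ), Nz (fun z => pl (fun i => f (p.1 i) z) p.2) y := by
  by_contra! a
  obtain ⟨z, b, c, d⟩ := (h.and_eventually (e1.and (eventually_all.2 fun p =>
    not_not.1 (a p)))).exists
  obtain ⟨p, l⟩ := exists_pl (c ▸ b)
  exact l (d p)

theorem Fam.freq [PreconnectedSpace X] (hJ : Fam n J) {x : X} (h : k ≤ finrank ℂ (J x)) (y : X) :
    ∃ᶠ z in 𝓝 y, k ≤ finrank ℂ (J z) := by
  refine mem_closure_iff_frequently.1 ((IsClopen.eq_univ (s := closure {z | k ≤ finrank ℂ (J z)})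
    ⟨isClosed_closure, isOpen_iff_mem_nhds.2 fun y hy => ?_⟩ ⟨x, subset_closure h⟩).ge trivial)
  obtain ⟨ι, _, f, b, f1, -, e1, -⟩ := hJ y
  obtain ⟨p, a⟩ := exists_nz (e1.mono fun _ a => a.1) (mem_closure_iff_frequently.1 hy)
  filter_upwards [a.near (hol_pl (fun i => f1 _) _), e1.eventually_nhds] with z c d
  exact mem_closure_iff_frequently.2 (((not_eventually.1 c).and_eventually d).mono fun w l =>
    le_of_pl (fun i => l.2.1 ▸ Submodule.subset_span ⟨_, rfl⟩) l.1)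

end

variable [ChartedSpace (Cm 2) X] [IsManifold 𝓘(ℂ, Cm 2) ω X]

theorem Fam.lc (hJ : Fam 2 J) (h : ∃ᶠ z in 𝓝 y, k ≤ finrank ℂ (J z)) :
    ∃ A : (Fin k → κ) → X → ℂ, ∀ᶠ z in 𝓝 y, Lc 2 J A z ∧ (z ≠ y → ∃ K, A K z ≠ 0) := by
  obtain ⟨ι, _, f, b, f1, -, e1, -⟩ := hJ y
  obtain ⟨p, a⟩ := exists_nz (e1.mono fun _ a => a.1) h
  obtain ⟨d, A, d1, d2, a1, a2⟩ := prim (hol_pl fun i => f1 (p.1 i)) a
  refine ⟨A, ?_⟩
  filter_upwards [eventually_all.2 fun K => (a1 K).near, gen_near (d2.gen d1),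
    (a2.and e1).eventually_nhds] with z u v w
  refine ⟨⟨u, ?_⟩, w.self_of_nhds.1.2⟩
  filter_upwards [v, gen_of_nhds w] with t l m
    using ⟨_, _, l, fun i => m.2.1 ▸ Submodule.subset_span ⟨_, rfl⟩, m.1.1⟩

theorem Fam.dat [T2Space X] [CompactSpace X] [ConnectedSpace X] (hJ : Fam 2 J) :
    ∃ (T : Finset X) (k : ℕ) (U : T → Set X) (q : T → (Fin k → κ) → X → ℂ),
      Dat 2 U Subtype.val q := by
  have bd : BddAbove (range fun z => finrank ℂ (J z)) :=
    ⟨_, forall_mem_range.2 fun z => (J z).finrank_le⟩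
  obtain ⟨x, hx⟩ := Nat.sSup_mem (range_nonempty _) bd
  have hk : ∀ z, finrank ℂ (J z) ≤ finrank ℂ (J x) := fun z => (le_csSup bd ⟨z, rfl⟩).trans hx.ge
  choose A hA using fun y => hJ.lc (hJ.freq (x := x) le_rfl y)
  choose V v1 v2 v3 using fun y => eventually_nhds_iff.1 (hA y)
  obtain ⟨T, hT⟩ := isCompact_univ.elim_finite_subcover V v2 fun y _ => mem_iUnion.2 ⟨y, v3 y⟩
  refine ⟨T, _, fun i => V i \ ((T : Set X) \ {i.1}), fun i => A i, fun i => (v2 _).sdiff
    (T.finite_toSet.sdiff.isClosed), fun y => ?_, fun i j a => Subtype.ext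
      (by_contra fun b => a.2 ⟨i.2, b⟩), fun i K y a => (v1 _ y a.1).1.hol K,
    fun i y a => (v1 _ y a.1).2, fun i j y a b => (v1 _ y a.1).1.rel hk (v1 _ y b.1).1,
    fun i y a b => ((v1 _ y a.1).2 b).elim fun _ => (v1 _ y a.1).1.imm hJ hk⟩
  by_cases a : y ∈ T
  · exact ⟨⟨y, a⟩, v3 y, fun b => b.2 rfl⟩
  · obtain ⟨i, b, c⟩ := mem_iUnion₂.1 (hT (mem_univ y))
    exact ⟨⟨i, b⟩, c, fun d => a d.1⟩

end Vale.Agent.P287T.Pj
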