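import Mathlib.LinearAlgebra.Matrix.Determinant.Basic
import Mathlib.LinearAlgebra.Basis.VectorSpace
import Mathlib.LinearAlgebra.Dual.Lemmas
import Mathlib.Analysis.Normed.Module.FiniteDimension
import Mathlib.Analysis.Calculus.FDeriv.Analytic
import Mathlib.Analysis.Analytic.CPolynomial
import Mathlib.Analysis.Analytic.Constructions
import Mathlib.Analysis.Complex.Basic

/-!
# The span of the polarised minors of a pencil of linear maps
-/

open Module Function Filter Topology Matrix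

noncomputable section

namespace Vale.Agent.P287T.Pj

section alg

variable {E A B ε : Type} [AddCommGroup E] [Module ℂ E] [AddCommGroup A] [Module ℂ A]
  [AddCommGroup B] [Module ℂ B] {n : ℕ}

/-- the determinant as a multilinear function of the rows -/
abbrev mnD (n : ℕ) : MultilinearMap ℂ (fun _ : Fin n => Fin n → ℂ) ℂ :=
  (Matrix.detRowAlternating : (Fin n → ℂ) [⋀^Fin n]→ₗ[ℂ] ℂ).toMultilinearMap

/-- polarised minors -/
def mn (δ : E →ₗ[ℂ] A →ₗ[ℂ] B) (α : Fin n → Dual ℂ B) (g : Fin n → A) (e : Fin n → E) : ℂ :=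
  (Matrix.of fun j i => α i (δ (e j) (g j))).det

/-- minors as multilinear functions of the parameters -/
def mnE (δ : E →ₗ[ℂ] A →ₗ[ℂ] B) (α : Fin n → Dual ℂ B) (g : Fin n → A) :
    MultilinearMap ℂ (fun _ : Fin n => E) ℂ :=
  (mnD n).compLinearMap fun j => LinearMap.pi α ∘ₗ δ.flip (g j)

/-- minors as multilinear functions of the vectors -/
def mnG (δ : E →ₗ[ℂ] A →ₗ[ℂ] B) (α : Fin n → Dual ℂ B) (e : Fin n → E) :
    MultilinearMap ℂ (fun _ : Fin n => A) ℂ :=
  (mnD n).compLinearMap fun j => LinearMap.pi α ∘ₗ δ (e j)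

/-- minors as multilinear functions of the covectors -/
def mnA (δ : E →ₗ[ℂ] A →ₗ[ℂ] B) (g : Fin n → A) (e : Fin n → E) :
    MultilinearMap ℂ (fun _ : Fin n => Dual ℂ B) ℂ :=
  (mnD n).compLinearMap fun _ => LinearMap.pi fun j => Dual.eval ℂ B (δ (e j) (g j))

variable (δ : E →ₗ[ℂ] A →ₗ[ℂ] B) (α : Fin n → Dual ℂ B) (g : Fin n → A) (e : Fin n → E)

theorem mnE_apply : mnE δ α g e = mn δ α g e := rfl

theorem mnG_apply : mnG δ α e g = mn δ α g e := rfl

theorem mnA_apply : mnA δ g e α = mn δ α g e := by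
  rw [mn, ← Matrix.det_transpose]
  rfl

theorem mn_ml_basis {M V ι : Type} [AddCommGroup M] [Module ℂ M] [AddCommGroup V] [Module ℂ V]
    [Fintype ι] (F : MultilinearMap ℂ (fun _ : Fin n => M) V) (b : Basis ι ℂ M) (x : Fin n → M) :
    F x = ∑ κ : Fin n → ι, (∏ j, b.repr (x j) (κ j)) • F fun j => b (κ j) := by
  have h : x = fun j => ∑ i, b.repr (x j) i • b i := funext fun j => (b.sum_repr (x j)).symm
  refine (congrArg F h).trans ?_
  rw [F.map_sum fun j i => b.repr (x j) i • b i]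
  exact Finset.sum_congr rfl fun κ _ => F.map_smul_univ _ _

theorem mn_ml_mem {M V ι : Type} [AddCommGroup M] [Module ℂ M] [AddCommGroup V] [Module ℂ V]
    [Fintype ι] (F : MultilinearMap ℂ (fun _ : Fin n => M) V) (b : Basis ι ℂ M)
    {S : Submodule ℂ V} (h : ∀ κ : Fin n → ι, (F fun j => b (κ j)) ∈ S) (x : Fin n → M) :
    F x ∈ S := by
  rw [mn_ml_basis F b x]
  exact S.sum_mem fun κ _ => S.smul_mem _ (h κ)

/-- the coefficient vector of a polarised minor -/
def vec (b : Basis ε ℂ E) (δ : E →ₗ[ℂ] A →ₗ[ℂ] B) (α : Fin n → Dual ℂ B) (g : Fin n → A) :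
    (Fin n → ε) → ℂ := fun κ => mn δ α g fun j => b (κ j)

/-- the Segre map -/
def ver (n : ℕ) (b : Basis ε ℂ E) :
    MultilinearMap ℂ (fun _ : Fin n => E) ((Fin n → ε) → ℂ) :=
  MultilinearMap.pi fun κ =>
    (MultilinearMap.mkPiAlgebra ℂ (Fin n) ℂ).compLinearMap fun j => b.coord (κ j)

theorem ver_apply (b : Basis ε ℂ E) (κ : Fin n → ε) :
    ver n b e κ = ∏ j, b.repr (e j) (κ j) := rfl

theorem vec_dot [Fintype ε] (b : Basis ε ℂ E) : vec b δ α g ⬝ᵥ ver n b e = mn δ α g e := by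
  rw [← mnE_apply, mn_ml_basis (mnE δ α g) b e, dotProduct]
  exact Finset.sum_congr rfl fun κ _ => mul_comm _ _

/-- the span of the polarised minors -/
def Jm (n : ℕ) (b : Basis ε ℂ E) (δ : E →ₗ[ℂ] A →ₗ[ℂ] B) : Submodule ℂ ((Fin n → ε) → ℂ) :=
  Submodule.span ℂ (Set.range fun x : (Fin n → Dual ℂ B) × (Fin n → A) => vec b δ x.1 x.2)

theorem vec_mem (b : Basis ε ℂ E) : vec b δ α g ∈ Jm n b δ := Submodule.subset_span ⟨(α, g), rfl⟩

variable {δ}

theorem Jm_le (b : Basis ε ℂ E) {δ' : E →ₗ[ℂ] A →ₗ[ℂ] B} (a : A → A) (c : B →ₗ[ℂ] B)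
    (h : ∀ e g, δ' e g = c (δ e (a g))) : Jm n b δ' ≤ Jm n b δ := by
  refine Submodule.span_le.2 ?_
  rintro _ ⟨⟨α, g⟩, rfl⟩
  have h1 : vec b δ' α g = vec b δ (fun i => α i ∘ₗ c) fun j => a (g j) := by
    funext κ
    simp only [vec, mn, h]
    rfl
  exact (congrArg (· ∈ Jm n b δ) h1).mpr (vec_mem δ _ _ b)

theorem Jm_eq {ια ιγ : Type} [Fintype ια] [Fintype ιγ] (b : Basis ε ℂ E)
    (bα : Basis ια ℂ (Dual ℂ B)) (bγ : Basis ιγ ℂ A) (δ : E →ₗ[ℂ] A →ₗ[ℂ] B) :
    Jm n b δ = Submodule.span ℂ (Set.range fun x : (Fin n → ια) × (Fin n → ιγ) =>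
      vec b δ (fun i => bα (x.1 i)) fun j => bγ (x.2 j)) := by
  refine le_antisymm (Submodule.span_le.2 ?_) (Submodule.span_le.2 ?_)
  · rintro _ ⟨⟨α, g⟩, rfl⟩
    have h1 : ∀ (α : Fin n → Dual ℂ B) (g : Fin n → A), vec b δ α g =
        MultilinearMap.pi (fun κ : Fin n → ε => mnA δ g fun j => b (κ j)) α :=
      fun α g => funext fun κ => (mnA_apply δ α g _).symm
    have h2 : ∀ (α : Fin n → Dual ℂ B) (g : Fin n → A), vec b δ α g =
        MultilinearMap.pi (fun κ : Fin n → ε => mnG δ α fun j => b (κ j)) g :=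
      fun α g => rfl
    change vec b δ α g ∈ Submodule.span ℂ _
    rw [h1]
    refine mn_ml_mem _ bα (fun κ => ?_) α
    rw [← h1, h2]
    refine mn_ml_mem _ bγ (fun κ' => ?_) g
    rw [← h2]
    exact Submodule.subset_span ⟨(κ, κ'), rfl⟩
  · rintro _ ⟨x, rfl⟩
    exact vec_mem δ _ _ b

theorem mn_zero [Module.Finite ℂ A] {e : E} (h : finrank ℂ (LinearMap.range (δ e)) < n) :
    mn δ α g (fun _ => e) = 0 := by
  refine Matrix.det_eq_zero_of_not_linearIndependent_rows fun hl => ?_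
  have h1 : LinearIndependent ℂ fun j => (δ e).rangeRestrict (g j) :=
    LinearIndependent.of_comp (LinearMap.pi α ∘ₗ (LinearMap.range (δ e)).subtype) hl
  have h2 := h1.fintype_card_le_finrank
  rw [Fintype.card_fin] at h2
  exact absurd h (not_lt.2 h2)

theorem mn_imm [Module.Finite ℂ A] {r : ℕ} {e η : E} {o : A}
    (h : finrank ℂ (LinearMap.range (δ e)) = r) (h0 : δ e o = 0)
    (hη : δ η o ∉ LinearMap.range (δ e)) :
    ∃ (α : Fin (r + 1) → Dual ℂ B) (g : Fin (r + 1) → A),
      ∑ j, mn δ α g (update (fun _ => e) j η) = 1 := by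
  let c := Module.finBasisOfFinrankEq ℂ _ h
  choose g hg using fun j => (c j).2
  have h1 : LinearIndependent ℂ fun j => (c j).1 :=
    c.linearIndependent.map' (LinearMap.range (δ e)).subtype (Submodule.ker_subtype _)
  have h2 : LinearIndependent ℂ (Fin.cons (δ η o) fun j => (c j).1 : Fin (r + 1) → B) := by
    refine LinearIndependent.finCons h1 fun hm => hη ?_
    refine (Submodule.span_le.2 ?_ : _ ≤ LinearMap.range (δ e)) hm
    rintro _ ⟨j, rfl⟩
    exact (c j).2
  obtain ⟨L, hL⟩ := LinearMap.exists_leftInverse_of_injective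
    (Fintype.linearCombination ℂ (Fin.cons (δ η o) fun j => (c j).1 : Fin (r + 1) → B))
    (LinearMap.ker_eq_bot.2
      (linearIndependent_iff_injective_fintypeLinearCombination.1 h2))
  have h3 : ∀ j, L ((Fin.cons (δ η o) fun j => (c j).1 : Fin (r + 1) → B) j) = Pi.single j 1 := by
    intro j
    have := LinearMap.congr_fun hL (Pi.single j 1)
    rwa [LinearMap.comp_apply, Fintype.linearCombination_apply_single, one_smul] at this
  refine ⟨fun i => LinearMap.proj i ∘ₗ L, Fin.cons o g, ?_⟩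
  rw [Fin.sum_univ_succ, Finset.sum_eq_zero, add_zero]
  · rw [mn, ← Matrix.det_one (n := Fin (r + 1))]
    refine congrArg Matrix.det (Matrix.ext fun j i => ?_)
    have h4 : δ (update (fun _ : Fin (r + 1) => e) 0 η j) ((Fin.cons o g : Fin (r + 1) → A) j) =
        (Fin.cons (δ η o) fun j => (c j).1 : Fin (r + 1) → B) j := by
      refine Fin.cases ?_ (fun j => ?_) j
      · rfl
      · rw [update_of_ne (Fin.succ_ne_zero j)]
        exact hg j
    rw [Matrix.of_apply, h4, LinearMap.comp_apply, h3, LinearMap.proj_apply, Matrix.one_apply,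
      Pi.single_apply]
    exact if_congr eq_comm rfl rfl
  · intro j _
    refine Matrix.det_eq_zero_of_row_eq_zero 0 fun i => ?_
    rw [Matrix.of_apply, update_of_ne (Fin.succ_ne_zero j).symm]
    exact (congrArg _ h0).trans (map_zero _)

end alg

section ana

variable {E A B ε Z : Type} [NormedAddCommGroup E] [NormedSpace ℂ E] [FiniteDimensional ℂ E]
  [Fintype ε] [NormedAddCommGroup Z] [NormedSpace ℂ Z] {n : ℕ}

/-- the Segre map as a continuous multilinear map -/
def verL (n : ℕ) (b : Basis ε ℂ E) :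
    ContinuousMultilinearMap ℂ (fun _ : Fin n => E) ((Fin n → ε) → ℂ) :=
  ⟨ver n b, continuous_pi fun κ =>
    show Continuous fun a : Fin n → E => ∏ j, b.coord (κ j) (a j) from
      continuous_finsetProd _ fun j _ =>
        (b.coord (κ j)).continuous_of_finiteDimensional.comp (continuous_apply j)⟩

theorem ver_an (b : Basis ε ℂ E) {e : Z → E} {z : Z} (h : AnalyticAt ℂ e z) :
    AnalyticAt ℂ (fun y => ver n b fun _ => e y) z :=
  ((verL n b).analyticAt).comp (analyticAt_pi_iff.2 fun _ => h)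

theorem ver_fderiv (b : Basis ε ℂ E) {e : Z → E} {z : Z} (h : AnalyticAt ℂ e z) (v : Z) :
    fderiv ℂ (fun y => ver n b fun _ => e y) z v =
      ∑ j, ver n b (update (fun _ => e z) j (fderiv ℂ e z v)) := by
  have h1 : HasFDerivAt (fun y => fun _ : Fin n => e y)
      (ContinuousLinearMap.pi fun _ => fderiv ℂ e z) z :=
    hasFDerivAt_pi.2 fun _ => h.differentiableAt.hasFDerivAt
  have h2 := (((verL n b).hasFDerivAt fun _ => e z).comp z h1).fderiv
  refine (congrArg (fun T : Z →L[ℂ] (Fin n → ε) → ℂ => T v) h2).trans ?_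
  rw [ContinuousLinearMap.comp_apply, ContinuousMultilinearMap.linearDeriv_apply]
  rfl

theorem mn_det_an {M : Z → Matrix (Fin n) (Fin n) ℂ} {z : Z}
    (h : ∀ i j, AnalyticAt ℂ (fun y => M y i j) z) : AnalyticAt ℂ (fun y => (M y).det) z := by
  simp only [Matrix.det_apply']
  exact Finset.analyticAt_fun_sum _ fun σ _ =>
    analyticAt_const.mul (Finset.analyticAt_fun_prod _ fun i _ => h _ _)

variable [NormedAddCommGroup A] [NormedSpace ℂ A] [FiniteDimensional ℂ A] [NormedAddCommGroup B]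
  [NormedSpace ℂ B] [FiniteDimensional ℂ B]

omit [FiniteDimensional ℂ E] [FiniteDimensional ℂ A] in
theorem vec_an (b : Basis ε ℂ E) {δ : Z → E →ₗ[ℂ] A →ₗ[ℂ] B} {z : Z}
    (h : ∀ e g, AnalyticAt ℂ (fun y => δ y e g) z) (α : Fin n → Dual ℂ B) (g : Fin n → A) :
    AnalyticAt ℂ (fun y => vec b (δ y) α g) z :=
  analyticAt_pi_iff.2 fun _ => mn_det_an fun _ i =>
    ((α i).toContinuousLinearMap.analyticAt _).comp (h _ _)

omit [FiniteDimensional ℂ B] in
/-- the rank is lower semicontinuous -/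
theorem mn_rank_le {Y : Type} [TopologicalSpace Y] {T : Y → A →ₗ[ℂ] B} {y : Y}
    (h : ∀ g, ContinuousAt (fun x => T x g) y) :
    ∀ᶠ x in 𝓝 y, finrank ℂ (LinearMap.range (T y)) ≤ finrank ℂ (LinearMap.range (T x)) := by
  let c := Module.finBasis ℂ (LinearMap.range (T y))
  choose g hg using fun j => (c j).2
  have h1 : LinearIndependent ℂ fun j => T y (g j) := by
    simp only [hg]
    exact c.linearIndependent.map' (LinearMap.range (T y)).subtype (Submodule.ker_subtype _)
  have h2 : ContinuousAt (fun x j => T x (g j)) y := continuousAt_pi.2 fun j => h _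
  filter_upwards [h2.eventually h1.eventually] with x hx
  have h3 : LinearIndependent ℂ fun j => (T x).rangeRestrict (g j) :=
    LinearIndependent.of_comp (LinearMap.range (T x)).subtype hx
  simpa only [Fintype.card_fin] using h3.fintype_card_le_finrank

end ana

end Vale.Agent.P287T.Pj
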