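import Vale.Agent.P287Q.Pv.Of
import Vale.Agent.P287Q.Cub.Defs
import Mathlib.Geometry.Manifold.IsManifold.Basic

/-!
# Projectivity of a compact surface: the statements
-/

namespace Vale.Agent.P287T.Pj

open Set Function Topology Filter P287Q

variable (n : ℕ) {X : Type} [TopologicalSpace X] [ChartedSpace (Fin n → ℂ) X]
  {E : Type} [NormedAddCommGroup E] [NormedSpace ℂ E]

/-- `f` is holomorphic at `x`. -/
def Ho (f : X → E) (x : X) : Prop :=
  AnalyticAt ℂ (fun z => f ((chartAt (Fin n → ℂ) x).symm z)) (chartAt (Fin n → ℂ) x x)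

/-- The differential of `f` at `x`. -/
noncomputable def dH (f : X → E) (x : X) : (Fin n → ℂ) →L[ℂ] E :=
  fderiv ℂ (fun z => f ((chartAt (Fin n → ℂ) x).symm z)) (chartAt (Fin n → ℂ) x x)

/-- A family of subspaces with local holomorphic generators `f i`, which are orthogonal to a vector
`b` that moves to first order out of the annihilator. -/
def Fam {κ : Type} [Fintype κ] (J : X → Submodule ℂ (κ → ℂ)) : Prop :=
  ∀ x, ∃ (ι : Type) (_ : Fintype ι) (f : ι → X → κ → ℂ) (b : X → κ → ℂ), (∀ i, Ho n (f i) x) ∧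
    Ho n b x ∧ (∀ᶠ y in 𝓝 x, J y = Submodule.span ℂ (range fun i => f i y) ∧
      ∀ i, f i y ⬝ᵥ b y = 0) ∧ ∀ v, (∀ i, f i x ⬝ᵥ dH n b x v = 0) → v = 0

/-- `X` is the variety of the cone `Z`. -/
structure Cone {ν : ℕ} (Z : Set (Fin ν → ℂ)) (q : (Fin ν → ℂ) → X) : Prop
    extends Qm (Cub.π₀ (Fin ν)) Z n q where
  slc : ∀ x, ∃ σ : (Fin n → ℂ) → Fin ν → ℂ, Slc (Cub.π₀ (Fin ν)) Z σ (chartAt (Fin n → ℂ) x x) ∧
    ∀ᶠ z in 𝓝 (chartAt (Fin n → ℂ) x x), q (σ z) = (chartAt (Fin n → ℂ) x).symm z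

variable (X) in
/-- `X` is projective. -/
def Alg : Prop := ∃ (ν : ℕ) (Z : Set (Fin ν → ℂ)) (q : (Fin ν → ℂ) → X), Cone n Z q

end Vale.Agent.P287T.Pj
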