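import Vale.Agent.P287T.Au.Defs
import Vale.Agent.P287T.Pj.St
import Vale.Agent.P287T.Pj.Mn

/-!
# The family of subspaces attached to a surface of matrix factorizations
-/

open Module Function Filter Topology Matrix

noncomputable section

namespace Vale.Agent.P287T.Pj

open Vale.Agent.P287T.Cy Vale.Agent.P287T.Df Vale.Agent.P287T.Au Vale.Agent.P287Z.T

section one

variable {ι : Type} [Fintype ι] (p : ι → ℤ)

/-- the pencil `g ↦ D g - c g U` -/
def mfD (U : MM p p 3) : (MM p p 3 × ℂ) →ₗ[ℂ] MM p p 0 →ₗ[ℂ] MM p p 3 :=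
  (mulB p p p (add_zero 3)).coprod
    (LinearMap.toSpanSingleton ℂ _ (-(mulB p p p (zero_add 3)).flip U))

/-- the boundary map `h ↦ U h + h U` -/
def mfB (U : MM p p 3) : MM p p (0 - 3) →ₗ[ℂ] MM p p 0 :=
  mulB p p p (add_sub_cancel 3 0) U + (mulB p p p (sub_add_cancel 0 3)).flip U

variable {p}

theorem mfD_eq (U : MM p p 3) (e : MM p p 3 × ℂ) (g : MM p p 0) :
    mfD p U e g = mulL p p p (add_zero 3) e.1 g - e.2 • mulL p p p (zero_add 3) g U := by
  rw [sub_eq_add_neg, ← smul_neg]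
  rfl

theorem mfD_val (U : MM p p 3) (e : MM p p 3 × ℂ) (g : MM p p 0) :
    (mfD p U e g).1 = e.1.1 * g.1 - e.2 • (g.1 * U.1) := by
  rw [mfD_eq]
  rfl

theorem mfB_val (U : MM p p 3) (h : MM p p (0 - 3)) : (mfB p U h).1 = U.1 * h.1 + h.1 * U.1 := rfl

/-- the rank of `g ↦ U g - g U` -/
def mfR (U : MM p p 3) : ℕ := finrank ℂ (LinearMap.range (mfD p U (U, 1)))

variable [DecidableEq ι]

theorem mf_sum {W : S6} {U : MM p p 3} (h : IsMF W p U.1) :
    finrank ℂ (HH p U.1 p U.1 0) + finrank ℂ (LinearMap.range (mfB p U)) + mfR U =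
      finrank ℂ (MM p p 0) := by
  have hZ : ZZ p U.1 p U.1 0 = (LinearMap.ker (mfD p U (U, 1))).map (MM p p 0).subtype := by
    ext g
    refine ⟨fun hg => ⟨⟨g, hg.1⟩, Subtype.ext ?_, rfl⟩, ?_⟩
    · rw [mfD_val, one_smul]
      exact sub_eq_zero.2 hg.2
    · rintro ⟨g, hg, rfl⟩
      have h1 := congrArg Subtype.val (LinearMap.mem_ker.1 hg)
      rw [mfD_val, one_smul] at h1
      exact ⟨g.2, sub_eq_zero.1 h1⟩
  have hB : BB p U.1 p U.1 0 = (LinearMap.range (mfB p U)).map (MM p p 0).subtype := by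
    ext g
    constructor
    · rintro ⟨k, hk, rfl⟩
      exact ⟨_, ⟨⟨k, hk⟩, rfl⟩, rfl⟩
    · rintro ⟨_, ⟨k, rfl⟩, rfl⟩
      exact ⟨k.1, k.2, rfl⟩
  have hle : BB p U.1 p U.1 0 ≤ ZZ p U.1 p U.1 0 := by
    rintro _ ⟨k, hk, rfl⟩
    refine ⟨(mfB p U ⟨k, hk⟩).2, ?_⟩
    rw [Matrix.mul_add, Matrix.add_mul, ← Matrix.mul_assoc, Matrix.mul_assoc k, h.sq,
      Matrix.smul_mul, Matrix.mul_smul, Matrix.one_mul, Matrix.mul_one, Matrix.mul_assoc,
      add_comm]
  have : Module.Finite ℂ (ZZ p U.1 p U.1 0) :=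
    Submodule.finiteDimensional_of_le (S₂ := MM p p 0) fun g hg => hg.1
  have h1 := finrank_hq hle
  have h2 := LinearMap.finrank_range_add_finrank_ker (mfD p U (U, 1))
  have h3 : finrank ℂ (ZZ p U.1 p U.1 0) = finrank ℂ (LinearMap.ker (mfD p U (U, 1))) := by
    rw [hZ, Submodule.finrank_map_subtype_eq]
  have h4 : finrank ℂ (BB p U.1 p U.1 0) = finrank ℂ (LinearMap.range (mfB p U)) := by
    rw [hB, Submodule.finrank_map_subtype_eq]
  rw [mfR, ← h2, ← h3, ← h1, h4, add_comm]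

/-- `U'` is conjugate to `U` -/
def MfC (U U' : MM p p 3) : Prop :=
  ∃ g g' : MM p p 0, g.1 * g'.1 = 1 ∧ g'.1 * g.1 = 1 ∧ g.1 * U.1 = U'.1 * g.1

theorem MfC.of {W : S6} {O : Set (Matrix ι ι S6)} (h : Orb W p O) {U U' : MM p p 3}
    (hU : U.1 ∈ O) (hU' : U'.1 ∈ O) : MfC U U' := by
  obtain ⟨g, hg, g', hg', a⟩ := (h.conj _ hU _).1 hU'
  exact ⟨⟨g, hg⟩, ⟨g', hg'⟩, a⟩

theorem MfC.Jm_le {U U' : MM p p 3} (h : MfC U U') {ε : Type} (n : ℕ)
    (b : Basis ε ℂ (MM p p 3 × ℂ)) : Jm n b (mfD p U') ≤ Jm n b (mfD p U) := by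
  obtain ⟨g, g', h1, -, h3⟩ := h
  refine Pj.Jm_le b (fun k => mulB p p p (add_zero 0) k g) ((mulB p p p (add_zero 3)).flip g')
    fun e k => Subtype.ext ?_
  change _ = (mfD p U e (mulB p p p (add_zero 0) k g)).1 * g'.1
  rw [mfD_val, mfD_val]
  change _ = (e.1.1 * (k.1 * g.1) - e.2 • (k.1 * g.1 * U.1)) * g'.1
  rw [Matrix.sub_mul, Matrix.smul_mul]
  simp only [Matrix.mul_assoc]
  rw [← Matrix.mul_assoc g.1 U.1, h3, Matrix.mul_assoc U'.1, h1, Matrix.mul_one, Matrix.mul_one]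

theorem MfC.rk_le {U U' : MM p p 3} (h : MfC U U') : mfR U' ≤ mfR U := by
  obtain ⟨g, g', h1, -, h3⟩ := h
  refine le_trans (Submodule.finrank_mono ?_) (Submodule.finrank_map_le
    (mulB p p p (zero_add 3) g ∘ₗ (mulB p p p (add_zero 3)).flip g') _)
  rintro _ ⟨k, rfl⟩
  refine ⟨_, ⟨mulB p p p (add_zero 0) g' (mulB p p p (add_zero 0) k g), rfl⟩, Subtype.ext ?_⟩
  change g.1 * ((mfD p U (U, 1) _).1 * g'.1) = _
  rw [mfD_val, mfD_val, one_smul, one_smul]
  change g.1 * ((U.1 * (g'.1 * (k.1 * g.1)) - g'.1 * (k.1 * g.1) * U.1) * g'.1) = _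
  rw [Matrix.sub_mul, Matrix.mul_sub]
  simp only [Matrix.mul_assoc]
  rw [← Matrix.mul_assoc g.1 U.1, ← Matrix.mul_assoc g.1 U.1, h3, Matrix.mul_assoc U'.1,
    Matrix.mul_assoc U'.1, h1, ← Matrix.mul_assoc g.1 g'.1, ← Matrix.mul_assoc g.1 g'.1, h1]
  simp only [Matrix.mul_one, Matrix.one_mul]

omit [DecidableEq ι] in
theorem mfD_an {Z : Type} [NormedAddCommGroup Z] [NormedSpace ℂ Z] {u : Z → MM p p 3} {z : Z}
    (h : AnalyticAt ℂ u z) (e : MM p p 3 × ℂ) (g : MM p p 0) :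
    AnalyticAt ℂ (fun y => mfD p (u y) e g) z := by
  simp only [mfD_eq]
  exact analyticAt_const.sub
    ((((mulL p p p (zero_add 3) g).analyticAt _).comp h).const_smul (c := e.2))

theorem mfR_ev {Y : Type} [TopologicalSpace Y] {W : S6} {u : Y → MM p p 3} {y : Y}
    (hu : ContinuousAt u y)
    (h : ∀ᶠ x in 𝓝 y, IsMF W p (u x).1 ∧ finrank ℂ (HH p (u x).1 p (u x).1 0) = 1) :
    ∀ᶠ x in 𝓝 y, mfR (u x) = mfR (u y) := by
  have h1 := mn_rank_le (T := fun x => mfD p (u x) (u x, 1)) (y := y) fun g => by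
    simp only [mfD_eq]
    exact (((mulL p p p (add_zero 3)).flip g).continuous.continuousAt.comp hu).sub
      (((mulL p p p (zero_add 3) g).continuous.continuousAt.comp hu).const_smul (1 : ℂ))
  have h2 := mn_rank_le (T := fun x => mfB p (u x)) (y := y) fun g =>
    (((mulL p p p (add_sub_cancel 3 0)).flip g).continuous.continuousAt.comp hu).add
      ((mulL p p p (sub_add_cancel 0 3) g).continuous.continuousAt.comp hu)
  have h3 := mf_sum h.self_of_nhds.1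
  rw [h.self_of_nhds.2] at h3
  filter_upwards [h, h1, h2] with x a b c
  have h4 := mf_sum a.1
  rw [a.2] at h4
  change mfR (u y) ≤ mfR (u x) at b
  lia

end one

variable {W : S6} (S : Srf W)

theorem srf_h0 {x : S.X} {d : Matrix S.ι S.ι S6} (h : d ∈ S.O x) :
    finrank ℂ (HH S.p d S.p d 0) = 1 := by
  have := (S.orb x).dim d h 0
  rwa [mul_zero, if_pos (Or.inl rfl)] at this

theorem srf_ev {x : S.X} {u : (Fin 2 → ℂ) → MM S.p S.p 3}
    (h : ∀ᶠ z in 𝓝 (chartAt (Fin 2 → ℂ) x x), (u z).1 ∈ S.O ((chartAt (Fin 2 → ℂ) x).symm z)) :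
    ∀ᶠ y in 𝓝 x, (u (chartAt (Fin 2 → ℂ) x y)).1 ∈ S.O y := by
  filter_upwards [((chartAt (Fin 2 → ℂ) x).continuousAt (mem_chart_source _ x)).eventually h,
    chart_source_mem_nhds (Fin 2 → ℂ) x] with y a b
  rwa [(chartAt (Fin 2 → ℂ) x).left_inv b] at a

/-- **The family of subspaces.** -/
theorem srf_fam : ∃ (κ : Type) (_ : Fintype κ) (J : S.X → Submodule ℂ (κ → ℂ)), Fam 2 J := by
  choose d hd using fun x => (S.orb x).ne
  let D : S.X → MM S.p S.p 3 := fun x => ⟨d x, ((S.orb x).mf _ (hd x)).deg⟩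
  have hrk : ∀ {x} {U : MM S.p S.p 3}, U.1 ∈ S.O x → mfR U = mfR (D x) := fun {x U} h =>
    le_antisymm (MfC.of (S.orb x) (U := D x) (hd x) h).rk_le
      (MfC.of (S.orb x) (U' := D x) h (hd x)).rk_le
  have hlc : IsLocallyConstant fun x => mfR (D x) := by
    refine (IsLocallyConstant.iff_eventually_eq _).2 fun x => ?_
    obtain ⟨u, h1, h2, -⟩ := S.loc x
    have h3 := srf_ev S h2
    have h4 := mfR_ev (W := W) (u := fun y => u (chartAt (Fin 2 → ℂ) x y)) (y := x)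
      (h1.continuousAt.comp ((chartAt (Fin 2 → ℂ) x).continuousAt (mem_chart_source _ x)))
      (h3.mono fun y a => ⟨(S.orb y).mf _ a, srf_h0 S a⟩)
    filter_upwards [h3, h4] with y a b
    rw [← hrk a, b, hrk h3.self_of_nhds]
  obtain ⟨r, hr⟩ : ∃ r, ∀ x, mfR (D x) = r :=
    ⟨_, fun x => hlc.apply_eq_of_preconnectedSpace x (Classical.arbitrary S.X)⟩
  let b := Module.finBasis ℂ (MM S.p S.p 3 × ℂ)
  let bα := Module.finBasis ℂ (Dual ℂ (MM S.p S.p 3))
  let bγ := Module.finBasis ℂ (MM S.p S.p 0)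
  refine ⟨_, inferInstance, fun x => Jm (r + 1) b (mfD S.p (D x)), fun x => ?_⟩
  obtain ⟨u, h1, h2, h3⟩ := S.loc x
  have h4 := srf_ev S h2
  have h5 : ∀ᶠ z in 𝓝 (chartAt (Fin 2 → ℂ) x x),
      chartAt (Fin 2 → ℂ) x ((chartAt (Fin 2 → ℂ) x).symm z) = z :=
    (chartAt (Fin 2 → ℂ) x).eventually_right_inverse (mem_chart_target _ x)
  have h6 : AnalyticAt ℂ (fun z => (u z, (1 : ℂ))) (chartAt (Fin 2 → ℂ) x x) :=
    h1.prod analyticAt_const
  have h7 : (fun z => ver (r + 1) b fun _ => (u z, (1 : ℂ))) =ᶠ[𝓝 (chartAt (Fin 2 → ℂ) x x)]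
      fun z => ver (r + 1) b fun _ =>
        (u (chartAt (Fin 2 → ℂ) x ((chartAt (Fin 2 → ℂ) x).symm z)), (1 : ℂ)) :=
    h5.mono fun z a => by simp only [a]
  refine ⟨(Fin (r + 1) → _) × (Fin (r + 1) → _), inferInstance,
    fun i y => vec b (mfD S.p (u (chartAt (Fin 2 → ℂ) x y))) (fun j => bα (i.1 j))
      fun j => bγ (i.2 j),
    fun y => ver (r + 1) b fun _ => (u (chartAt (Fin 2 → ℂ) x y), 1), fun i => ?_,
    (ver_an b h6).congr h7, h4.mono fun y a => ⟨?_, fun i => ?_⟩, fun v hv => h3 v ?_⟩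
  · exact (vec_an b (mfD_an h1) (fun j => bα (i.1 j)) fun j => bγ (i.2 j)).congr
      (h5.mono fun z a => by simp only [a])
  · rw [← Jm_eq]
    exact le_antisymm ((MfC.of (S.orb y) (U' := D y) a (hd y)).Jm_le _ b)
      ((MfC.of (S.orb y) (U := D y) (hd y) a).Jm_le _ b)
  · rw [vec_dot]
    exact mn_zero _ _ (Nat.lt_succ_of_le ((hrk a).trans (hr y)).le)
  · have h8 : fderiv ℂ (fun z => (u z, (1 : ℂ))) (chartAt (Fin 2 → ℂ) x x) v =
        (fderiv ℂ u (chartAt (Fin 2 → ℂ) x x) v, 0) := by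
      rw [(h1.differentiableAt.hasFDerivAt.prodMk (hasFDerivAt_const (1 : ℂ) _)).fderiv]
      rfl
    simp only [dH, ← h7.fderiv_eq, ver_fderiv b h6, h8] at hv
    by_contra hn
    obtain ⟨α, g, h9⟩ := mn_imm (δ := mfD S.p (u (chartAt (Fin 2 → ℂ) x x)))
      (e := (u (chartAt (Fin 2 → ℂ) x x), 1)) (η := (fderiv ℂ u (chartAt (Fin 2 → ℂ) x x) v, 0))
      (o := oneM S.p) ((hrk h4.self_of_nhds).trans (hr x)) (Subtype.ext (by
        rw [mfD_val, one_smul]
        exact sub_eq_zero.2 ((Matrix.mul_one _).trans (Matrix.one_mul _).symm))) (by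
        rintro ⟨k, hk⟩
        have h10 := congrArg Subtype.val hk
        rw [mfD_val, mfD_val, one_smul, zero_smul, sub_zero] at h10
        refine hn ⟨-k.1, neg_mem k.2, ((Matrix.mul_one _).symm.trans h10.symm).trans ?_⟩
        rw [Matrix.neg_mul, Matrix.mul_neg, sub_neg_eq_add, neg_add_eq_sub])
    have h11 := vec_mem (mfD S.p (u (chartAt (Fin 2 → ℂ) x x))) α g b
    rw [Jm_eq b bα bγ] at h11
    have h12 : ∀ w ∈ Submodule.span ℂ (Set.range fun i : (Fin (r + 1) → _) × (Fin (r + 1) → _) =>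
        vec b (mfD S.p (u (chartAt (Fin 2 → ℂ) x x))) (fun j => bα (i.1 j)) fun j => bγ (i.2 j)),
        w ⬝ᵥ ∑ j, ver (r + 1) b (update (fun _ => (u (chartAt (Fin 2 → ℂ) x x), (1 : ℂ))) j
          (fderiv ℂ u (chartAt (Fin 2 → ℂ) x x) v, 0)) = 0 := by
      intro w hw
      induction hw using Submodule.span_induction with
      | mem w hw =>
        obtain ⟨i, rfl⟩ := hw
        exact hv i
      | zero => exact zero_dotProduct _
      | add a c _ _ ha hc => rw [add_dotProduct, ha, hc, add_zero]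
      | smul c a _ ha => rw [smul_dotProduct, ha, smul_zero]
    have h13 := h12 _ h11
    rw [dotProduct_sum] at h13
    simp only [vec_dot] at h13
    exact one_ne_zero (h9.symm.trans h13)

end Vale.Agent.P287T.Pj
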