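import Vale.Agent.P287T.Pj.Cf
import Vale.Agent.P287T.Pj.Main

/-!
# The moduli surface is projective
-/

namespace Vale.Agent.P287T.Pj

open Vale.Agent.P287T.Au

/-- **PROJ** -/
theorem stProj : StProj := fun _ S Q hQ => stProj_of (fun _ _ _ _ h => proj h) S Q hQ

end Vale.Agent.P287T.Pj
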